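import Vale.Agent.P202.Mixed.Defs

/-!
# P202 mixed characteristic: products of null homotopies

From null homotopies `s a` of `c a` on `G` one gets, for each subset, the product `H S` in
increasing order; its commutator with the differential is the Koszul differential on the `c a`.
-/

noncomputable section

namespace Vale.Agent.P202.Mixed

open Matrix Finset

universe u

variable {B : Type u} [CommRing B] {d : ℕ} (G : FreeCx B) (M : Type u) [AddCommGroup M] [Module B M]

/-- A matrix acting on families in a module. -/
def matAct (P : Matrix G.ι G.ι B) : (G.ι → M) →ₗ[B] (G.ι → M) where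
  toFun f h := ∑ g, P h g • f g
  map_add' f f' := by
    funext h
    simp [Finset.sum_add_distrib]
  map_smul' c f := by
    funext h
    simp [Finset.smul_sum, smul_comm c]

variable {G M}

theorem matAct_apply (P : Matrix G.ι G.ι B) (f : G.ι → M) (h : G.ι) :
    matAct G M P f h = ∑ g, P h g • f g := rfl

theorem matAct_mat (f : G.ι → M) : matAct G M G.mat f = G.dA M f := rfl

theorem matAct_mul (P P' : Matrix G.ι G.ι B) (f : G.ι → M) :
    matAct G M (P * P') f = matAct G M P (matAct G M P' f) := by
  funext h
  simp only [matAct_apply, Matrix.mul_apply, Finset.sum_smul, Finset.smul_sum, mul_smul]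
  rw [Finset.sum_comm]

theorem matAct_one (f : G.ι → M) : matAct G M 1 f = f := by
  funext h
  simp [matAct_apply, Matrix.one_apply, ite_smul]

theorem matAct_add (P P' : Matrix G.ι G.ι B) (f : G.ι → M) :
    matAct G M (P + P') f = matAct G M P f + matAct G M P' f := by
  funext h
  simp [matAct_apply, add_smul, Finset.sum_add_distrib]

theorem matAct_smul (r : B) (P : Matrix G.ι G.ι B) (f : G.ι → M) :
    matAct G M (r • P) f = r • matAct G M P f := by
  funext h
  simp [matAct_apply, Finset.smul_sum, mul_smul]

theorem matAct_zsmul (z : ℤ) (P : Matrix G.ι G.ι B) (f : G.ι → M) :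
    matAct G M (z • P) f = z • matAct G M P f := by
  rw [← Int.cast_smul_eq_zsmul B z P, matAct_smul, Int.cast_smul_eq_zsmul]

theorem matAct_sum {α : Type*} (t : Finset α) (P : α → Matrix G.ι G.ι B) (f : G.ι → M) :
    matAct G M (∑ a ∈ t, P a) f = ∑ a ∈ t, matAct G M (P a) f := by
  classical
  induction t using Finset.induction_on with
  | empty =>
    funext h
    simp [matAct_apply]
  | insert a t hat ih => rw [Finset.sum_insert hat, Finset.sum_insert hat, matAct_add, ih]

/-- The product of the homotopies over a subset, in increasing order. -/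
def homProd (s : Fin d → Matrix G.ι G.ι B) (S : Finset (Fin d)) : Matrix G.ι G.ι B :=
  ((S.sort (· ≤ ·)).map s).prod

theorem homProd_empty (s : Fin d → Matrix G.ι G.ι B) : homProd s ∅ = 1 := by
  simp [homProd]

theorem homProd_insert (s : Fin d → Matrix G.ι G.ι B) {a : Fin d} {S : Finset (Fin d)}
    (ha : ∀ b ∈ S, a < b) : homProd s (insert a S) = s a * homProd s S := by
  rw [homProd, homProd, Finset.sort_insert (· ≤ ·) (fun b hb => (ha b hb).le)
    (fun h => lt_irrefl a (ha a h)), List.map_cons, List.prod_cons]

theorem homProd_pos {s : Fin d → Matrix G.ι G.ι B}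
    (hs : ∀ a h g, s a h g ≠ 0 → G.pos h = G.pos g + 1) (S : Finset (Fin d)) :
    ∀ h g, homProd s S h g ≠ 0 → G.pos h = G.pos g + S.card := by
  classical
  induction S using Finset.induction_on_min with
  | empty =>
    intro h g hne
    rw [homProd_empty, Matrix.one_apply] at hne
    split_ifs at hne with e
    · subst e
      simp
    · exact absurd rfl hne
  | insert a S ha ih =>
    intro h g hne
    rw [homProd_insert s ha, Matrix.mul_apply] at hne
    obtain ⟨l, -, hl⟩ := Finset.exists_ne_zero_of_sum_ne_zero hne
    have h1 := hs a h l (left_ne_zero_of_mul hl)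
    have h2 := ih l g (right_ne_zero_of_mul hl)
    rw [Finset.card_insert_of_notMem fun h => lt_irrefl a (ha a h)]
    omega

/-- The commutator of the products with the differential. -/
theorem homProd_comm {s : Fin d → Matrix G.ι G.ι B} {c : Fin d → B}
    (hs : ∀ a, G.mat * s a + s a * G.mat = c a • (1 : Matrix G.ι G.ι B)) (S : Finset (Fin d)) :
    G.mat * homProd s S = (-1 : ℤ) ^ S.card • (homProd s S * G.mat) +
      ∑ b ∈ S, kosSign (S.erase b) b • (c b • homProd s (S.erase b)) := by
  classical
  induction S using Finset.induction_on_min with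
  | empty => simp [homProd_empty]
  | insert a S ha ih =>
    have haS : a ∉ S := fun h => lt_irrefl a (ha a h)
    have hsign : kosSign ((insert a S).erase a) a = 1 := by
      rw [Finset.erase_insert haS, kosSign, Finset.filter_false_of_mem
        fun b hb => not_lt.2 (ha b hb).le, Finset.card_empty, pow_zero]
    have hsign' : ∀ b ∈ S, kosSign ((insert a S).erase b) b = -kosSign (S.erase b) b := by
      intro b hb
      rw [kosSign, kosSign, Finset.erase_insert_of_ne (ha b hb).ne, Finset.filter_insert,
        if_pos (ha b hb), Finset.card_insert_of_notMem, pow_succ, mul_neg_one]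
      exact fun h => haS (Finset.mem_of_mem_erase (Finset.mem_of_mem_filter a h))
    rw [homProd_insert s ha, ← mul_assoc, eq_sub_of_add_eq (hs a), sub_mul, mul_assoc, ih,
      Finset.sum_insert haS, hsign, Finset.erase_insert haS, one_smul,
      Finset.card_insert_of_notMem haS]
    have e : ∑ b ∈ S, kosSign ((insert a S).erase b) b • (c b • homProd s ((insert a S).erase b)) =
        -(s a * ∑ b ∈ S, kosSign (S.erase b) b • (c b • homProd s (S.erase b))) := by
      rw [Finset.mul_sum, ← Finset.sum_neg_distrib]
      refine Finset.sum_congr rfl fun b hb => ?_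
      rw [hsign' b hb, Finset.erase_insert_of_ne (ha b hb).ne,
        homProd_insert s fun b' hb' => ha b' (Finset.mem_of_mem_erase hb'), neg_smul,
        mul_smul_comm, mul_smul_comm]
    rw [e, smul_mul_assoc, one_mul, mul_add, mul_smul_comm, ← mul_assoc, pow_succ, mul_neg_one,
      neg_smul]
    abel

end Vale.Agent.P202.Mixed
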