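import Vale.Agent.P202.Mixed.Levels.Column

/-!
# P202 mixed characteristic: the graded pieces of `G ⊗ Kos` above the middle position

The levels are raised one basis vector of `G` at a time, higher positions first, so each step
only sees one Koszul column.
-/

noncomputable section

namespace Vale.Agent.P202.Mixed

open IsLocalRing MvPolynomial Finset

universe u

variable {B : Type u} [CommRing B] [IsLocalRing B]

/-- The Koszul column, with its index type visible. -/
@[reducible] def colCx (B : Type u) [CommRing B] (d Bq : ℕ) : FreeCx (Rz B d) where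
  ι := Finset (Fin d)
  pos S := d - S.card
  mat := kosMat fun a => (X a : Rz B d) ^ Bq
  mat_pos := kosMat_pos _
  sq := kosMat_sq _

/-- The complex `G ⊗ Kos` over the polynomial ring. -/
@[reducible] def tot (G : FreeCx B) (d Bq : ℕ) : FreeCx (Rz B d) where
  ι := G.ι × Finset (Fin d)
  pos l := G.pos l.1 + (d - l.2.card)
  mat := ((G.map (MvPolynomial.C : B →+* Rz B d)).tensor (colCx B d Bq)).mat
  mat_pos := ((G.map (MvPolynomial.C : B →+* Rz B d)).tensor (colCx B d Bq)).mat_pos
  sq := ((G.map (MvPolynomial.C : B →+* Rz B d)).tensor (colCx B d Bq)).sq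

variable {d K Bq : ℕ} {G : FreeCx B} {M : Type u} [AddCommGroup M] [Module (Rz B d) M]
  [Module B M] [IsScalarTower B (Rz B d) M]

/-- The levels of the product. -/
def totT (Bq : ℕ) (θ : G.ι → ℤ) (l : G.ι × Finset (Fin d)) : ℤ := colT Bq (θ l.1) l.2

theorem C_smul (r : B) (m : M) : (MvPolynomial.C r : Rz B d) • m = r • m := by
  rw [← MvPolynomial.algebraMap_eq, IsScalarTower.algebraMap_smul]

theorem tot_dA (f : G.ι × Finset (Fin d) → M) (h : G.ι) (S : Finset (Fin d)) :
    (tot G d Bq).dA M f (h, S) = (∑ g, G.mat h g • f (g, S)) +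
      ((-1 : ℤ) ^ G.pos h) • (colCx B d Bq).dA M (fun S' => f (h, S')) S := by
  classical
  show (∑ q : G.ι × Finset (Fin d),
    ((if S = q.2 then (MvPolynomial.C (G.mat h q.1) : Rz B d) else 0) +
      (if h = q.1 then (-1 : Rz B d) ^ G.pos h * (colCx B d Bq).mat S q.2 else 0)) • f q) = _
  simp only [add_smul, Finset.sum_add_distrib, ite_smul, zero_smul]
  refine congrArg₂ (· + ·) ?_ ?_
  · rw [Fintype.sum_prod_type]
    refine Finset.sum_congr rfl fun g _ => ?_
    rw [Finset.sum_ite_eq, if_pos (Finset.mem_univ _), C_smul]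
  · rw [Fintype.sum_prod_type, Fintype.sum_eq_single h fun g hg =>
      Finset.sum_eq_zero fun T _ => if_neg (Ne.symm hg)]
    have e : ((-1 : Rz B d) ^ G.pos h) = (((-1 : ℤ) ^ G.pos h : ℤ) : Rz B d) := by push_cast; rfl
    show _ = ((-1 : ℤ) ^ G.pos h) • ∑ T, (colCx B d Bq).mat S T • f (h, T)
    rw [Finset.smul_sum]
    refine Finset.sum_congr rfl fun T _ => ?_
    rw [if_pos rfl, e, mul_smul, Int.cast_smul_eq_zsmul]

theorem tot_pos (h : G.ι) (S : Finset (Fin d)) :
    (tot G d Bq).pos (h, S) = G.pos h + (d - S.card) := rfl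

theorem mem_tot_deg {p : ℤ} {f : G.ι × Finset (Fin d) → M}
    (hf : f ∈ ((tot G d Bq).diff M B).deg p) (h : G.ι) (S : Finset (Fin d))
    (hne : ((G.pos h + (d - S.card) : ℕ) : ℤ) ≠ p) : f (h, S) = 0 := hf (h, S) hne

theorem zsmul_mem_filB {u : ℤ} (z : ℤ) {m : M} (hm : m ∈ filB B (d := d) M K u) :
    z • m ∈ filB B (d := d) M K u := zsmul_mem hm z

/-- Raising the level of one basis vector. -/
theorem len_step_le {κ : ℕ} (hw : ∀ h g, (MvPolynomial.C (G.mat h g) : Rz B d) ∈ wIdeal B d K κ)
    {θ θ' : G.ι → ℤ} (g₀ : G.ι) (h₀ : θ' g₀ = θ g₀ + 1) (hne : ∀ g, g ≠ g₀ → θ' g = θ g)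
    (hin : ∀ g, G.mat g₀ g ≠ 0 → θ g₀ + 1 ≤ θ g + κ)
    (hout : ∀ h, G.mat h g₀ ≠ 0 → θ h ≤ θ g₀ + κ) (p : ℤ) :
    len (((tot G d Bq).diff M B).bdries (lvlF B (d := d) M K (totT Bq θ))
        (lvlF B (d := d) M K (totT Bq θ')) p)
      (((tot G d Bq).diff M B).cycles (lvlF B (d := d) M K (totT Bq θ))
        (lvlF B (d := d) M K (totT Bq θ')) p) ≤
    len (((colCx B d Bq).diff M B).bdries (lvlF B (d := d) M K (colT Bq (θ g₀)))
        (lvlF B (d := d) M K fun S => colT Bq (θ g₀) S + 1) (p - G.pos g₀))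
      (((colCx B d Bq).diff M B).cycles (lvlF B (d := d) M K (colT Bq (θ g₀)))
        (lvlF B (d := d) M K fun S => colT Bq (θ g₀) S + 1) (p - G.pos g₀)) := by
  classical
  let φ : (G.ι × Finset (Fin d) → M) →ₗ[B] (Finset (Fin d) → M) :=
    LinearMap.funLeft B M fun S => (g₀, S)
  have hT' : ∀ S : Finset (Fin d), totT Bq θ' (g₀, S) = colT Bq (θ g₀) S + 1 := fun S => by
    simp only [totT, colT, h₀]
    ring
  have hG : ∀ {x : G.ι × Finset (Fin d) → M}, (∀ l, x l ∈ filB B (d := d) M K (totT Bq θ l)) →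
      ∀ S, (∑ g, G.mat g₀ g • x (g, S)) ∈ filB B (d := d) M K (colT Bq (θ g₀) S + 1) := by
    intro x hx S
    refine Submodule.sum_mem _ fun g _ => ?_
    by_cases h : G.mat g₀ g = 0
    · rw [h, zero_smul]
      exact Submodule.zero_mem _
    · rw [← C_smul (d := d)]
      refine smul_mem_filB (hw _ _) (hx (g, S)) ?_
      have := hin g h
      simp only [totT, colT]
      omega
  refine (len_le_map φ (P' := ((colCx B d Bq).diff M B).bdries (lvlF B (d := d) M K (colT Bq (θ g₀)))
        (lvlF B (d := d) M K fun S => colT Bq (θ g₀) S + 1) (p - G.pos g₀)) ?_).trans (len_mono ?_)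
  · intro x hx hx0
    obtain ⟨hxX, hxd, hxY⟩ := (Diff.mem_cycles _).1 hx
    have hxX' := mem_lvlF.1 hxX
    obtain ⟨y, ⟨hy, hyd⟩, e, ⟨he, -⟩, hye⟩ := (Diff.mem_bdries _).1 hx0
    have hy' := mem_lvlF.1 hy
    have he' := mem_lvlF.1 he
    let w : G.ι × Finset (Fin d) → M := fun l =>
      if l.1 = g₀ then ((-1 : ℤ) ^ G.pos g₀) • y l.2 else 0
    have hwg : ∀ S, w (g₀, S) = ((-1 : ℤ) ^ G.pos g₀) • y S := fun S => if_pos rfl
    have hwo : ∀ g, g ≠ g₀ → ∀ S, w (g, S) = 0 := fun g hg S => if_neg hg
    have hwd : w ∈ ((tot G d Bq).diff M B).deg (p + 1) := by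
      rintro ⟨g, S⟩ hg
      by_cases h : g = g₀
      · subst h
        have h0 : y S = 0 := hyd S (by
          show ((d - Finset.card S : ℕ) : ℤ) ≠ p - (G.pos g : ℤ) + 1
          intro h
          apply hg
          show ((G.pos g + (d - Finset.card S) : ℕ) : ℤ) = p + 1
          push_cast
          omega)
        rw [hwg, h0, smul_zero]
      · exact hwo g h S
    have hval : ∀ h S, (tot G d Bq).dA M w (h, S) =
        ((-1 : ℤ) ^ G.pos g₀) • (G.mat h g₀ • y S) +
          if h = g₀ then (colCx B d Bq).dA M y S else 0 := by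
      intro h S
      rw [tot_dA, Fintype.sum_eq_single g₀ fun g hg => by rw [hwo g hg, smul_zero], hwg,
        smul_comm]
      congr 1
      split_ifs with hh
      · subst hh
        rw [show (fun S' => w (h, S')) = ((-1 : ℤ) ^ G.pos h) • y from funext hwg, map_zsmul,
          Pi.smul_apply, smul_smul, ← pow_add, ← two_mul, pow_mul, neg_one_sq, one_pow, one_smul]
      · rw [show (fun S' => w (h, S')) = 0 from funext (hwo h hh), map_zero, Pi.zero_apply,
          smul_zero]
    have hwX : w ∈ lvlF B (d := d) M K (totT Bq θ) := by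
      refine mem_lvlF.2 fun l => ?_
      obtain ⟨g, S⟩ := l
      by_cases h : g = g₀
      · subst h
        rw [hwg]
        exact zsmul_mem_filB _ (hy' S)
      · rw [hwo g h]
        exact Submodule.zero_mem _
    refine (Diff.mem_bdries _).2 ⟨w, ⟨hwX, hwd⟩, x - (tot G d Bq).dA M w,
      ⟨mem_lvlF.2 fun l => ?_, ?_⟩, add_sub_cancel _ _⟩
    · obtain ⟨h, S⟩ := l
      show x (h, S) - (tot G d Bq).dA M w (h, S) ∈ _
      rw [hval]
      by_cases hh : h = g₀
      · subst hh
        have hm : G.mat h h = 0 := by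
          by_contra hm
          have := G.mat_pos h h hm
          omega
        rw [hm, zero_smul, smul_zero, zero_add, if_pos rfl, hT']
        have := congrFun hye S
        change (colCx B d Bq).dA M y S + e S = x (h, S) at this
        rw [← this, add_sub_cancel_left]
        exact he' S
      · rw [if_neg hh, add_zero, show totT Bq θ' (h, S) = totT Bq θ (h, S) by
          simp only [totT, hne h hh]]
        refine Submodule.sub_mem _ (hxX' (h, S)) ?_
        by_cases hm : G.mat h g₀ = 0
        · rw [hm, zero_smul, smul_zero]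
          exact Submodule.zero_mem _
        · refine zsmul_mem_filB _ ?_
          rw [← C_smul (d := d)]
          refine smul_mem_filB (hw _ _) (hy' S) ?_
          have := hout h hm
          simp only [totT, colT]
          omega
    · refine Submodule.sub_mem _ hxd ?_
      have := ((tot G d Bq).diff M B).d_deg (p + 1) w hwd
      rwa [add_sub_cancel_right] at this
  · rintro _ ⟨x, hx, rfl⟩
    obtain ⟨hxX, hxd, hxY⟩ := (Diff.mem_cycles _).1 hx
    refine (Diff.mem_cycles _).2 ⟨mem_lvlF.2 fun S => mem_lvlF.1 hxX (g₀, S), fun S hS => ?_,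
      mem_lvlF.2 fun S => ?_⟩
    · refine mem_tot_deg hxd g₀ S fun h => hS ?_
      show ((d - Finset.card S : ℕ) : ℤ) = p - (G.pos g₀ : ℤ)
      push_cast at h
      omega
    · have h1 : (tot G d Bq).dA M x (g₀, S) ∈
          filB B (d := d) M K (colT Bq (θ g₀) S + 1) := by
        have := mem_lvlF.1 hxY (g₀, S)
        rwa [hT'] at this
      rw [tot_dA] at h1
      have h2 := zsmul_mem_filB ((-1 : ℤ) ^ G.pos g₀)
        ((Submodule.add_mem_iff_right _ (hG (mem_lvlF.1 hxX) S)).1 h1)
      rw [smul_smul, ← pow_add, ← two_mul, pow_mul, neg_one_sq, one_pow, one_smul] at h2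
      exact h2

/-- All graded pieces between two levels. -/
theorem len_tot_le {κ : ℕ} (hw : ∀ h g, (MvPolynomial.C (G.mat h g) : Rz B d) ∈ wIdeal B d K κ)
    {θ : G.ι → ℤ} (hθ : ∀ h g, G.mat h g ≠ 0 → θ h ≤ θ g + κ) {N : ℕ} {p : ℤ} {C : ℕ∞}
    (hC : ∀ (g : G.ι) (k : ℕ), k < N →
      len (((colCx B d Bq).diff M B).bdries (lvlF B (d := d) M K (colT Bq (θ g + k)))
          (lvlF B (d := d) M K fun S => colT Bq (θ g + k) S + 1) (p - G.pos g))
        (((colCx B d Bq).diff M B).cycles (lvlF B (d := d) M K (colT Bq (θ g + k)))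
          (lvlF B (d := d) M K fun S => colT Bq (θ g + k) S + 1) (p - G.pos g)) ≤ C) :
    len (((tot G d Bq).diff M B).bdries (lvlF B (d := d) M K (totT Bq θ))
        (lvlF B (d := d) M K (totT Bq fun g => θ g + (N : ℤ))) p)
      (((tot G d Bq).diff M B).cycles (lvlF B (d := d) M K (totT Bq θ))
        (lvlF B (d := d) M K (totT Bq fun g => θ g + (N : ℤ))) p) ≤
      ((N * Fintype.card G.ι : ℕ) : ℕ∞) * C := by
  classical
  let L := fun T T' : G.ι → ℤ =>
    len (((tot G d Bq).diff M B).bdries (lvlF B (d := d) M K (totT Bq T))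
        (lvlF B (d := d) M K (totT Bq T')) p)
      (((tot G d Bq).diff M B).cycles (lvlF B (d := d) M K (totT Bq T))
        (lvlF B (d := d) M K (totT Bq T')) p)
  have hdev : ∀ T T' T'' : G.ι → ℤ, (∀ g, T g ≤ T' g) → (∀ g, T' g ≤ T'' g) →
      L T T'' ≤ L T' T'' + L T T' := fun T T' T'' h h' =>
    len_devissage _ (lvlF_antitone fun l => by simp only [totT, colT]; linarith [h' l.1])
      (lvlF_antitone fun l => by simp only [totT, colT]; linarith [h l.1]) p
  have hself : ∀ T : G.ι → ℤ, L T T = 0 := fun T => len_eq_zero fun x hx => by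
    obtain ⟨h1, h2, -⟩ := (Diff.mem_cycles _).1 hx
    exact (Diff.mem_bdries _).2 ⟨0, ⟨Submodule.zero_mem _, Submodule.zero_mem _⟩, x, ⟨h1, h2⟩,
      by rw [map_zero, zero_add]⟩
  -- one layer
  have layer : ∀ k : ℕ, k < N → ∀ s : Finset G.ι, (∀ h g, G.mat h g ≠ 0 → h ∈ s → g ∈ s) →
      L (fun g => θ g + k) (fun g => θ g + k + if g ∈ s then 1 else 0) ≤
        (s.card : ℕ∞) * C := by
    intro k hk s
    induction s using Finset.strongInduction with
    | H s ih =>
      intro hs
      rcases s.eq_empty_or_nonempty with rfl | hne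
      · rw [show (fun g : G.ι => θ g + k + if g ∈ (∅ : Finset G.ι) then (1 : ℤ) else 0) =
          fun g => θ g + k from funext fun g => by simp, hself]
        exact zero_le
      obtain ⟨g₀, hg₀, hmin⟩ := s.exists_min_image G.pos hne
      have hs' : ∀ h g, G.mat h g ≠ 0 → h ∈ s.erase g₀ → g ∈ s.erase g₀ := fun h g hm hh => by
        obtain ⟨-, hh'⟩ := Finset.mem_erase.1 hh
        refine Finset.mem_erase.2 ⟨fun e => ?_, hs h g hm hh'⟩
        have h1 := G.mat_pos h g hm
        have h2 := hmin h hh'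
        rw [e] at h1
        omega
      let T₁ : G.ι → ℤ := fun g => θ g + k + if g ∈ s.erase g₀ then 1 else 0
      have hT₁ : ∀ g, g ≠ g₀ → T₁ g = θ g + k + if g ∈ s then 1 else 0 := fun g hg => by
        simp [T₁, hg]
      have hT₀ : T₁ g₀ = θ g₀ + k := by simp [T₁]
      refine (hdev _ T₁ _ (fun g => by simp only [T₁]; split_ifs <;> omega) fun g => ?_).trans ?_
      · by_cases hg : g = g₀
        · subst hg
          rw [hT₀, if_pos hg₀]
          omega
        · rw [hT₁ g hg]
      refine (add_le_add ?_ (ih _ (Finset.erase_ssubset hg₀) hs')).trans ?_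
        (b := C + ((s.erase g₀).card : ℕ∞) * C)
      · refine (len_step_le hw g₀ (θ := T₁) (by rw [hT₀, if_pos hg₀]) (fun g hg => (hT₁ g hg).symm)
          ?_ ?_ p).trans ?_
        · intro g hm
          have h1 := G.mat_pos g₀ g hm
          have h2 := hθ g₀ g hm
          have hgne : g ≠ g₀ := fun e => by rw [e] at h1; omega
          rw [hT₀, hT₁ g hgne, if_pos (hs g₀ g hm hg₀)]
          omega
        · intro h hm
          have h1 := G.mat_pos h g₀ hm
          have h2 := hθ h g₀ hm
          have hns : h ∉ s.erase g₀ := fun hh => by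
            have := hmin h (Finset.mem_of_mem_erase hh)
            omega
          rw [hT₀]
          simp only [T₁, if_neg hns]
          omega
        · rw [hT₀]
          exact hC g₀ k hk
      · rw [← Finset.card_erase_add_one hg₀, Nat.cast_add, Nat.cast_one, add_mul, one_mul,
          add_comm]
  have main : ∀ k : ℕ, k ≤ N → L θ (fun g => θ g + k) ≤ ((k * Fintype.card G.ι : ℕ) : ℕ∞) * C := by
    intro k
    induction k with
    | zero =>
      intro _
      rw [show (fun g : G.ι => θ g + ((0 : ℕ) : ℤ)) = θ from funext fun g => by simp, hself]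
      exact zero_le
    | succ k ih =>
      intro hk
      have h := layer k (by omega) univ fun _ _ _ _ => Finset.mem_univ _
      rw [show (fun g : G.ι => θ g + k + if g ∈ (univ : Finset G.ι) then (1 : ℤ) else 0) =
        fun g => θ g + ((k + 1 : ℕ) : ℤ) from funext fun g => by simp; ring] at h
      refine (hdev _ (fun g => θ g + (k : ℤ)) _ (fun g => by omega) fun g => by omega).trans ?_
      refine (add_le_add h (ih (by omega))).trans (le_of_eq ?_)
      rw [Finset.card_univ]
      push_cast
      ring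
  exact main N le_rfl

end Vale.Agent.P202.Mixed
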