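import Vale.Agent.P202.Mixed.Interface
import Vale.Agent.P202.Mixed.Levels.Tot
import Vale.Agent.P202.Mixed.Levels.Homotopy

/-!
# P202 mixed characteristic: stable vanishing of the positive homology

A near cycle of `G ⊗ M` in positive position lifts, by the products of the null homotopies, to a
near cycle of `G ⊗ Kos ⊗ M`. There only Koszul positions above zero occur, whose graded pieces
are negligible.
-/

noncomputable section

namespace Vale.Agent.P202.Mixed

open IsLocalRing MvPolynomial Finset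

universe u

/-- The signs of the lift. -/
def liftSign (i : ℕ) : ℕ → ℤ
  | 0 => 1
  | k + 1 => (-1) ^ (i + k + 1) * liftSign i k

theorem liftSign_succ (i k : ℕ) :
    liftSign i (k + 1) + (-1) ^ (i + k) * liftSign i k = 0 := by
  rw [liftSign, pow_succ]
  ring

variable {B : Type u} [CommRing B] {d : ℕ}

section Basic

variable {M : Type u} [AddCommGroup M] [Module (Rz B d) M]

theorem col_dA (Bq : ℕ) (f : Finset (Fin d) → M) (T : Finset (Fin d)) :
    (colCx B d Bq).dA M f T =
      ∑ b ∈ T, kosSign (T.erase b) b • (((X b : Rz B d) ^ Bq) • f (T.erase b)) :=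
  kosMat_sum_smul (fun a => (X a : Rz B d) ^ Bq) f T

variable [Module B M] [IsLocalRing B]

theorem AlmostFree.pow_smul [IsScalarTower B (Rz B d) M] {x : Fin d → B} {Q K v D₁ E : ℕ}
    (hAF : AlmostFree B M x Q K v D₁ E) (a : Fin d) (y : M) :
    ∀ n : ℕ, x a ^ n • y = (X a : Rz B d) ^ (Q * n) • y
  | 0 => by simp
  | n + 1 => by
    rw [pow_succ', mul_smul, hAF.pow_smul a y n, hAF.x_smul, smul_smul, ← pow_add, Nat.mul_succ,
      add_comm Q]

end Basic

variable [IsLocalRing B] {M : Type u} [AddCommGroup M] [Module (Rz B d) M] [Module B M]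
  [IsScalarTower B (Rz B d) M]

/-- The lift of a family in position `q`. -/
def liftFam (G : FreeCx B) (s : Fin d → Matrix G.ι G.ι B) (q : ℕ) (z : G.ι → M)
    (l : G.ι × Finset (Fin d)) : M :=
  liftSign q l.2.card • matAct G M (homProd s l.2) z l.1

variable {G : FreeCx B} {s : Fin d → Matrix G.ι G.ι B}

theorem matAct_homProd_pos (hs : ∀ a h g, s a h g ≠ 0 → G.pos h = G.pos g + 1) {q : ℕ}
    {z : G.ι → M} (hz : ∀ g, G.pos g ≠ q → z g = 0) (S : Finset (Fin d)) (h : G.ι)
    (hh : G.pos h ≠ q + S.card) : matAct G M (homProd s S) z h = 0 := by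
  refine Finset.sum_eq_zero fun g _ => ?_
  by_cases hg : homProd s S h g = 0
  · rw [hg, zero_smul]
  · have := homProd_pos hs S h g hg
    rw [hz g (by omega), smul_zero]

/-- The boundary of the lift. -/
theorem liftFam_dA {x : Fin d → B} {Q K v D₁ E m : ℕ} (hAF : AlmostFree B M x Q K v D₁ E)
    (hs : ∀ a h g, s a h g ≠ 0 → G.pos h = G.pos g + 1)
    (hcomm : ∀ a, G.mat * s a + s a * G.mat = x a ^ m • (1 : Matrix G.ι G.ι B)) {q : ℕ}
    {z : G.ι → M} (hz : ∀ g, G.pos g ≠ q → z g = 0) (h : G.ι) (T : Finset (Fin d)) :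
    (tot G d (Q * m)).dA M (liftFam G s q z) (h, T) =
      (liftSign q T.card * (-1) ^ T.card) • matAct G M (homProd s T) (G.dA M z) h := by
  have e1 : ∑ g, G.mat h g • liftFam G s q z (g, T) =
      liftSign q T.card • matAct G M (G.mat * homProd s T) z h := by
    rw [matAct_mul, matAct_apply, Finset.smul_sum]
    exact Finset.sum_congr rfl fun g _ => smul_comm _ _ _
  rw [tot_dA, e1, homProd_comm hcomm, matAct_add, matAct_zsmul, matAct_mul, matAct_mat,
    matAct_sum, Pi.add_apply, Pi.smul_apply, Finset.sum_apply, smul_add, smul_smul, col_dA,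
    add_assoc, add_eq_left, Finset.smul_sum, Finset.smul_sum, ← Finset.sum_add_distrib]
  refine Finset.sum_eq_zero fun b hb => ?_
  rw [matAct_zsmul, matAct_smul, Pi.smul_apply, Pi.smul_apply]
  show _ + (-1 : ℤ) ^ G.pos h • kosSign (T.erase b) b • ((X b : Rz B d) ^ (Q * m)) •
    (liftSign q (T.erase b).card • matAct G M (homProd s (T.erase b)) z h) = 0
  by_cases hh : G.pos h = q + (T.erase b).card
  · rw [smul_comm ((X b : Rz B d) ^ (Q * m)) (liftSign q (T.erase b).card), ← hAF.pow_smul,
      smul_smul, smul_smul, smul_smul, ← add_smul, ← Finset.card_erase_add_one hb, hh]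
    have h0 := liftSign_succ q (T.erase b).card
    rw [show liftSign q ((T.erase b).card + 1) * kosSign (T.erase b) b +
      (-1) ^ (q + (T.erase b).card) * kosSign (T.erase b) b * liftSign q (T.erase b).card = 0 by
      linear_combination kosSign (T.erase b) b * h0, zero_smul]
  · rw [matAct_homProd_pos hs hz _ _ hh, smul_zero, smul_zero, smul_zero, smul_zero, smul_zero,
      smul_zero, smul_zero, add_zero]

/-- Stable vanishing. -/
theorem stableStatement : StableStatement.{u} := by
  intro B _ _ _ d hd x _ G hG hnull Q K c hQ hK hc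
  obtain ⟨m, hm, hn⟩ := hnull
  choose s hs hcomm using hn
  refine ⟨d * (Q * m), fun w => ⟨w + Q * m * d + 1, fun v hv => ?_⟩⟩
  obtain ⟨C, hC⟩ := exists_col_bound (B := B) d Q K v hK (by omega) x
  refine ⟨(w + Q * m * d) * Fintype.card G.ι * C, fun M _ _ _ _ D₁ E hAF i hi => ?_⟩
  obtain ⟨q, rfl⟩ := Int.eq_ofNat_of_zero_le (show 0 ≤ i by omega)
  obtain ⟨κ, hκc, hw⟩ : ∃ κ : ℕ, c ≤ κ ∧
      ∀ h g, (MvPolynomial.C (G.mat h g) : Rz B d) ∈ wIdeal B d K κ := by
    rcases hc with rfl | ⟨hcK, hE⟩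
    · exact ⟨0, le_rfl, fun h g => by rw [wIdeal_of_nonpos (by simp)]; trivial⟩
    · exact ⟨K, hcK.le, fun h g => C_mem_wIdeal (hE h g) le_rfl⟩
  set Bq := Q * m with hBq
  set N := w + Bq * d with hN
  let θ : G.ι → ℤ := fun g => -((Bq * d : ℕ) : ℤ) - ((c * G.pos g : ℕ) : ℤ)
  have hθ : ∀ h g, G.mat h g ≠ 0 → θ h ≤ θ g + κ := fun h g hne => by
    simp only [θ, G.mat_pos h g hne]
    push_cast
    linarith [(Int.ofNat_le.2 hκc : (c : ℤ) ≤ κ)]
  have hcard : ∀ S : Finset (Fin d), S.card ≤ d := fun S => by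
    simpa using Finset.card_le_univ S
  have htot := len_tot_le (K := K) (Bq := Bq) (M := M) hw hθ (N := N) (p := (q : ℤ) + d)
    (C := ((C * E : ℕ) : ℕ∞)) fun g k hk => hC M D₁ E hAF Bq (θ g + k) _
      (by have := hG g; omega) (by simp only [θ]; omega)
  let π : (G.ι × Finset (Fin d) → M) →ₗ[B] (G.ι → M) :=
    LinearMap.funLeft B M fun g => (g, (∅ : Finset (Fin d)))
  have hlev : ∀ g : G.ι, totT Bq (fun g => θ g + (N : ℤ)) (g, (∅ : Finset (Fin d))) =
      (w : ℤ) - ((c * G.pos g : ℕ) : ℤ) := fun g => by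
    simp only [totT, colT, θ, Finset.card_empty, mul_zero, N]
    push_cast
    ring
  have hbd : ∀ f, f ∈ ((tot G d Bq).diff M B).bdries (lvlF B (d := d) M K (totT Bq θ))
      (lvlF B (d := d) M K (totT Bq fun g => θ g + (N : ℤ))) ((q : ℤ) + d) →
      π f ∈ (G.diff M B).bdries ⊤ (filG B (d := d) M G K c (w : ℤ)) q := by
    intro f hf
    obtain ⟨W, ⟨-, hWd⟩, y, ⟨hy, hyd⟩, rfl⟩ := (Diff.mem_bdries _).1 hf
    refine (Diff.mem_bdries _).2 ⟨π W, ⟨trivial, fun g hg => ?_⟩, π y, ⟨?_, fun g hg => ?_⟩, ?_⟩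
    · refine hWd (g, ∅) ?_
      show ((G.pos g + (d - (∅ : Finset (Fin d)).card) : ℕ) : ℤ) ≠ _
      rw [Finset.card_empty]
      push_cast
      omega
    · rw [filG_eq_lvlF, mem_lvlF]
      intro g
      rw [← hlev]
      exact mem_lvlF.1 hy (g, ∅)
    · refine hyd (g, ∅) ?_
      show ((G.pos g + (d - (∅ : Finset (Fin d)).card) : ℕ) : ℤ) ≠ _
      rw [Finset.card_empty]
      push_cast
      omega
    · rw [map_add]
      congr 1
      funext g
      show G.dA M (π W) g = (tot G d Bq).dA M W (g, ∅)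
      rw [tot_dA, col_dA, Finset.sum_empty, smul_zero, add_zero]
      rfl
  unfold stabLen
  refine le_trans (len_mono (N' := (((tot G d Bq).diff M B).cycles
    (lvlF B (d := d) M K (totT Bq θ))
    (lvlF B (d := d) M K (totT Bq fun g => θ g + (N : ℤ))) ((q : ℤ) + d)).map π) ?_) ?_
  · intro z hz
    obtain ⟨-, hzd, hzY⟩ := (Diff.mem_cycles _).1 hz
    rw [filG_eq_lvlF] at hzY
    have hz' : ∀ g, G.pos g ≠ q → z g = 0 := fun g hg => hzd g (by exact_mod_cast hg)
    refine ⟨liftFam G s q z, (Diff.mem_cycles _).2 ⟨mem_lvlF.2 fun l => ?_, fun l hl => ?_,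
      mem_lvlF.2 fun l => ?_⟩, ?_⟩
    · rw [filB_of_nonpos]
      · trivial
      · have := Nat.mul_le_mul_left Bq (hcard l.2)
        simp only [totT, colT, θ]
        omega
    · obtain ⟨h, S⟩ := l
      show liftSign q S.card • matAct G M (homProd s S) z h = 0
      rw [matAct_homProd_pos hs hz' S h, smul_zero]
      intro e
      apply hl
      show ((G.pos h + (d - S.card) : ℕ) : ℤ) = _
      have := hcard S
      push_cast [Nat.cast_sub (hcard S)]
      omega
    · obtain ⟨h, T⟩ := l
      show (tot G d Bq).dA M (liftFam G s q z) (h, T) ∈ _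
      rw [liftFam_dA hAF hs hcomm hz', matAct_apply]
      refine zsmul_mem_filB _ (Submodule.sum_mem _ fun g _ => ?_)
      by_cases hg : homProd s T h g = 0
      · rw [hg, zero_smul]
        exact Submodule.zero_mem _
      · refine Submodule.smul_mem _ _ (filB_antitone ?_ (mem_lvlF.1 hzY g))
        have h1 := homProd_pos hs T h g hg
        have h2 := Nat.mul_le_mul_left Bq (hcard T)
        have h3 : c * G.pos g ≤ c * G.pos h := Nat.mul_le_mul_left c (by omega)
        have h4 : d * Bq = Bq * d := mul_comm _ _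
        simp only [totT, colT, θ, N]
        omega
    · funext g
      show liftSign q (∅ : Finset (Fin d)).card • matAct G M (homProd s ∅) z g = z g
      rw [homProd_empty, matAct_one, Finset.card_empty, liftSign, one_smul]
  · refine (len_map_le π (P := ((tot G d Bq).diff M B).bdries (lvlF B (d := d) M K (totT Bq θ))
      (lvlF B (d := d) M K (totT Bq fun g => θ g + (N : ℤ))) ((q : ℤ) + d))
      fun f _ hf => hbd f hf).trans (htot.trans (le_of_eq ?_))
    push_cast
    ring

end Vale.Agent.P202.Mixed
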