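import Vale.Agent.P202.Mixed.Levels.Src

/-!
# P202 mixed characteristic: lengths in products and over the residue field
-/

noncomputable section

namespace Vale.Agent.P202.Mixed

open IsLocalRing

universe uA u

section

variable {A : Type uA} [CommRing A] {M : Type*} [AddCommGroup M] [Module A M]
  {M' : Type*} [AddCommGroup M'] [Module A M']

/-- A map identifying two subquotients. -/
theorem len_map_eq (f : M →ₗ[A] M') {P N : Submodule A M} {P' N' : Submodule A M'}
    (h : N.map f = N') (hP : ∀ x ∈ N, x ∈ P → f x ∈ P') (hk : ∀ x ∈ N, f x ∈ P' → x ∈ P) :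
    len P N = len P' N' :=
  h ▸ le_antisymm (len_le_map f hk) (len_map_le f hP)

/-- Lengths in a finite product, exactly. -/
theorem len_pi_eq {ι : Type*} [Fintype ι] {M₀ : ι → Type*} [∀ g, AddCommGroup (M₀ g)]
    [∀ g, Module A (M₀ g)] (P N : ∀ g, Submodule A (M₀ g)) :
    len (Submodule.pi Set.univ P) (Submodule.pi Set.univ N) = ∑ g, len (P g) (N g) := by
  classical
  let f : Submodule.pi Set.univ N →ₗ[A] (∀ g, ↥((N g).map (P g).mkQ)) := LinearMap.pi fun g =>
    LinearMap.codRestrict _ ((P g).mkQ ∘ₗ LinearMap.proj g ∘ₗ (Submodule.pi Set.univ N).subtype)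
      fun x => ⟨_, x.2 g trivial, rfl⟩
  have hf : Function.Surjective f := by
    intro y
    choose z hz hzy using fun g => (y g).2
    exact ⟨⟨z, fun g _ => hz g⟩, funext fun g => Subtype.ext (hzy g)⟩
  have hk : LinearMap.ker f = (Submodule.pi Set.univ P).comap (Submodule.pi Set.univ N).subtype := by
    ext x
    constructor
    · exact fun hx g _ => (Submodule.Quotient.mk_eq_zero (P g)).1
        (congrArg Subtype.val (congrFun (LinearMap.mem_ker.1 hx) g))
    · exact fun hx => LinearMap.mem_ker.2 (funext fun g => Subtype.ext
        ((Submodule.Quotient.mk_eq_zero (P g)).2 (hx g trivial)))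
  rw [len_eq_quot, ← hk, (f.quotKerEquivOfSurjective hf).length_eq, Module.length_pi_of_fintype]
  rfl

end

section Residue

variable {B : Type u} [CommRing B] [IsLocalRing B] {V : Type u} [AddCommGroup V]
  [Module (ResidueField B) V] [Module B V] [IsScalarTower B (ResidueField B) V]

/-- Over the residue field the length is the dimension. -/
theorem len_restrictScalars (P N : Submodule (ResidueField B) V)
    [Module.Finite (ResidueField B) N] :
    len (P.restrictScalars B) (N.restrictScalars B) =
      (Module.finrank (ResidueField B) ↥(N.map P.mkQ) : ℕ∞) := by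
  rw [len_eq_quot, ← Module.length_eq_finrank,
    show Module.length (ResidueField B) ↥(N.map P.mkQ) = len P N from rfl, len_eq_quot,
    ← Module.length_eq_of_surjective (R := ResidueField B) (S := B) residue_surjective]
  exact LinearEquiv.length_eq (Submodule.Quotient.restrictScalarsEquiv B (P.comap N.subtype))

end Residue

end Vale.Agent.P202.Mixed
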