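import Vale.Agent.P202.Mixed.Levels.Fil

/-!
# P202 mixed characteristic: the homogeneous parts of the weight ideals
-/

noncomputable section

namespace Vale.Agent.P202.Mixed

open IsLocalRing MvPolynomial Finset

universe u

section comp

variable {A : Type u} [CommRing A] {d : ℕ}

variable (A d) in
/-- The component of an integer degree. -/
def compInt (j : ℤ) : Rz A d →ₗ[A] Rz A d :=
  if 0 ≤ j then MvPolynomial.homogeneousComponent j.toNat else 0

theorem coeff_comp (j : ℤ) (p : Rz A d) (α : Fin d →₀ ℕ) :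
    coeff α (compInt A d j p) = if (α.degree : ℤ) = j then coeff α p else 0 := by
  rw [compInt]
  split_ifs with h h' h'
  · rw [coeff_homogeneousComponent, if_pos (by omega)]
  · rw [coeff_homogeneousComponent, if_neg (by omega)]
  · omega
  · simp

theorem mem_homInt {j : ℤ} {p : Rz A d} :
    p ∈ homInt A d j ↔ ∀ α, coeff α p ≠ 0 → (α.degree : ℤ) = j := by
  rw [homInt]
  split_ifs with h
  · rw [homogeneousSubmodule_eq_finsupp_supported]
    constructor
    · intro hp α hα
      have : α.degree = j.toNat := hp (mem_support_iff.2 hα)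
      omega
    · intro hp α hα
      have := hp α (mem_support_iff.1 hα)
      show α.degree = j.toNat
      omega
  · rw [Submodule.mem_bot, MvPolynomial.ext_iff]
    constructor
    · intro hp α hα
      exact absurd (by rw [hp α, coeff_zero]) hα
    · intro hp α
      by_contra hα
      have := hp α (by simpa using hα)
      omega

theorem comp_mem_homInt (j : ℤ) (p : Rz A d) : compInt A d j p ∈ homInt A d j :=
  mem_homInt.2 fun α hα => by
    rw [coeff_comp] at hα
    by_contra h
    exact hα (if_neg h)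

theorem comp_eq_self {j : ℤ} {p : Rz A d} (hp : p ∈ homInt A d j) : compInt A d j p = p := by
  ext α
  rw [coeff_comp]
  split_ifs with h
  · rfl
  · by_contra h0
    exact h (mem_homInt.1 hp α (Ne.symm h0))

theorem mul_mem_homInt {i j : ℤ} {p q : Rz A d} (hp : p ∈ homInt A d i) (hq : q ∈ homInt A d j) :
    p * q ∈ homInt A d (i + j) := by
  classical
  refine mem_homInt.2 fun α hα => ?_
  rw [coeff_mul] at hα
  obtain ⟨⟨a, b⟩, hab, h0⟩ := Finset.exists_ne_zero_of_sum_ne_zero hα
  have ha := mem_homInt.1 hp a (left_ne_zero_of_mul h0)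
  have hb := mem_homInt.1 hq b (right_ne_zero_of_mul h0)
  rw [← mem_antidiagonal.1 hab, map_add]
  push_cast
  omega

theorem monomial_mem_homInt (α : Fin d →₀ ℕ) (r : A) :
    monomial α r ∈ homInt A d (α.degree : ℤ) := by
  classical
  refine mem_homInt.2 fun β hβ => ?_
  rw [coeff_monomial] at hβ
  by_cases h : α = β
  · rw [h]
  · exact absurd (if_neg h) hβ

end comp

section local'

variable {B : Type u} [CommRing B] [IsLocalRing B] {d K : ℕ}

theorem coeff_mem_of_mem_wIdeal {u : ℤ} {p : Rz B d} (hp : p ∈ wIdeal B d K u)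
    {α : Fin d →₀ ℕ} (hα : (α.degree : ℤ) < u) : coeff α p ∈ maximalIdeal B := by
  have h : wIdeal B d K u ≤ (maximalIdeal B).map C ⊔ zIdeal B d ^ u.toNat := by
    refine wIdeal_le fun a b hab => ?_
    rcases a with _ | a
    · have hub : u.toNat ≤ b := by simp at hab; omega
      exact (Ideal.mul_le_right).trans ((Ideal.pow_le_pow_right hub).trans le_sup_right)
    · refine Ideal.mul_le_left.trans (le_trans (Ideal.map_mono ?_) le_sup_left)
      exact Ideal.pow_le_self a.succ_ne_zero
  obtain ⟨y, hy, z, hz, rfl⟩ := Submodule.mem_sup.1 (h hp)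
  rw [coeff_add, (mem_pow_idealOfVars_iff' _ z).1 hz α (by omega), add_zero]
  exact mem_map_C_iff.1 hy α

theorem homInt_le_wIdeal {j : ℤ} {p : Rz B d} (hp : p ∈ homInt B d j) :
    p ∈ wIdeal B d K j := by
  refine zIdeal_pow_le_wIdeal (b := j.toNat) (by omega)
    ((mem_pow_idealOfVars_iff' _ p).2 fun α hα => ?_)
  by_contra h0
  have := mem_homInt.1 hp α h0
  omega

theorem sub_comp_mem_wIdeal {j : ℤ} {p : Rz B d} (hp : p ∈ zIdeal B d ^ j.toNat) :
    p - compInt B d j p ∈ wIdeal B d K (j + 1) := by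
  rcases lt_or_ge j 0 with hj | hj
  · rw [wIdeal_of_nonpos (by omega)]
    trivial
  refine zIdeal_pow_le_wIdeal (b := j.toNat + 1) (by omega)
    ((mem_pow_idealOfVars_iff' _ _).2 fun α hα => ?_)
  rw [coeff_sub, coeff_comp]
  split_ifs with h
  · exact sub_self _
  · rw [(mem_pow_idealOfVars_iff' _ p).1 hp α (by omega), sub_zero]

variable (B d)

/-- The elements of weight `j` with homogeneous leading part. -/
def srcX (K : ℕ) (j : ℤ) : Submodule B (Rz B d) :=
  homInt B d j ⊔ (wIdeal B d K (j + 1)).restrictScalars B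

/-- The leading part in degree `j`. -/
def lead (j : ℤ) : Rz B d →ₗ[B] MvPolynomial (Fin d) (ResidueField B) :=
  (MvPolynomial.mapAlgHom (Algebra.ofId B (ResidueField B))).toLinearMap ∘ₗ compInt B d j

/-- The elements of weight `j` without leading part. -/
def srcY (K : ℕ) (j : ℤ) : Submodule B (Rz B d) :=
  srcX B d K j ⊓ LinearMap.ker (lead B d j)

variable {B d}

theorem lead_apply (j : ℤ) (p : Rz B d) : lead B d j p = polyResidue B d (compInt B d j p) := rfl

theorem coeff_lead (j : ℤ) (p : Rz B d) (α : Fin d →₀ ℕ) :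
    coeff α (lead B d j p) = if (α.degree : ℤ) = j then residue B (coeff α p) else 0 := by
  rw [lead_apply, polyResidue, coeff_map, coeff_comp]
  split_ifs with h
  · rfl
  · exact map_zero _

theorem lead_eq_zero_of_mem_wIdeal {j : ℤ} {p : Rz B d} (hp : p ∈ wIdeal B d K (j + 1)) :
    lead B d j p = 0 := by
  ext α
  rw [coeff_lead, coeff_zero]
  split_ifs with h
  · exact (residue_eq_zero_iff _).2 (coeff_mem_of_mem_wIdeal hp (by omega))
  · rfl

theorem mem_srcX_of_homInt {j : ℤ} {p : Rz B d} (hp : p ∈ homInt B d j) : p ∈ srcX B d K j :=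
  Submodule.mem_sup_left hp

theorem mem_srcY_of_wIdeal {j : ℤ} {p : Rz B d} (hp : p ∈ wIdeal B d K (j + 1)) :
    p ∈ srcY B d K j :=
  ⟨Submodule.mem_sup_right hp, lead_eq_zero_of_mem_wIdeal hp⟩

theorem mem_srcX_of_zIdeal_pow {j : ℤ} {p : Rz B d} (hp : p ∈ zIdeal B d ^ j.toNat) :
    p ∈ srcX B d K j := by
  rw [← add_sub_cancel (compInt B d j p) p]
  exact Submodule.add_mem_sup (comp_mem_homInt j p) (sub_comp_mem_wIdeal hp)

theorem srcX_le_wIdeal {j : ℤ} {p : Rz B d} (hp : p ∈ srcX B d K j) : p ∈ wIdeal B d K j := by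
  obtain ⟨y, hy, z, hz, rfl⟩ := Submodule.mem_sup.1 hp
  exact Ideal.add_mem _ (homInt_le_wIdeal hy) (wIdeal_antitone (by omega) hz)

theorem srcY_le_wIdeal (hK : 1 ≤ K) {j : ℤ} {p : Rz B d} (hp : p ∈ srcY B d K j) :
    p ∈ wIdeal B d K (j + 1) := by
  obtain ⟨hpX, hpk⟩ := hp
  obtain ⟨y, hy, z, hz, rfl⟩ := Submodule.mem_sup.1 hpX
  refine Ideal.add_mem _ ?_ hz
  rw [SetLike.mem_coe, LinearMap.mem_ker, map_add, lead_eq_zero_of_mem_wIdeal hz, add_zero] at hpk
  rw [y.as_sum]
  refine Ideal.sum_mem _ fun α hα => ?_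
  have hdeg := mem_homInt.1 hy α (mem_support_iff.1 hα)
  have hm : coeff α y ∈ maximalIdeal B := by
    have := congrArg (coeff α) hpk
    rwa [coeff_lead, if_pos hdeg, coeff_zero, residue_eq_zero_iff] at this
  rw [show monomial α (coeff α y) = C (coeff α y) * monomial α 1 by
    rw [C_mul_monomial, mul_one]]
  refine wIdeal_antitone (u := j + 1) (u' := (K : ℤ) + j) (by omega) (wIdeal_mul (K : ℤ) j
    (Ideal.mul_mem_mul (C_mem_wIdeal hm le_rfl) ?_))
  rw [← hdeg]
  exact homInt_le_wIdeal (monomial_mem_homInt α 1)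

theorem mul_mem_srcX {i j : ℤ} {p q : Rz B d} (hp : p ∈ srcX B d K i) (hq : q ∈ srcX B d K j) :
    p * q ∈ srcX B d K (i + j) := by
  have hq' := srcX_le_wIdeal hq
  obtain ⟨y, hy, z, hz, rfl⟩ := Submodule.mem_sup.1 hp
  obtain ⟨y', hy', z', hz', rfl⟩ := Submodule.mem_sup.1 hq
  rw [show (y + z) * (y' + z') = y * y' + (y * z' + z * (y' + z')) by ring]
  refine Submodule.add_mem_sup (mul_mem_homInt hy hy') (Ideal.add_mem _ ?_ ?_)
  · exact wIdeal_antitone (by omega)
      (wIdeal_mul i (j + 1) (Ideal.mul_mem_mul (homInt_le_wIdeal hy) hz'))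
  · exact wIdeal_antitone (by omega) (wIdeal_mul (i + 1) j (Ideal.mul_mem_mul hz hq'))

/-- Leading parts multiply. -/
theorem lead_mul {i j : ℤ} {p q : Rz B d} (hp : p ∈ srcX B d K i) (hq : q ∈ srcX B d K j) :
    lead B d (i + j) (p * q) = lead B d i p * lead B d j q := by
  have hq' := srcX_le_wIdeal hq
  obtain ⟨y, hy, z, hz, rfl⟩ := Submodule.mem_sup.1 hp
  obtain ⟨y', hy', z', hz', rfl⟩ := Submodule.mem_sup.1 hq
  have h1 : lead B d (i + j) (y * z' + z * (y' + z')) = 0 :=
    lead_eq_zero_of_mem_wIdeal (Ideal.add_mem _ (wIdeal_antitone (by omega)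
      (wIdeal_mul i (j + 1) (Ideal.mul_mem_mul (homInt_le_wIdeal hy) hz'))) (wIdeal_antitone
        (by omega) (wIdeal_mul (i + 1) j (Ideal.mul_mem_mul hz hq'))))
  rw [show (y + z) * (y' + z') = y * y' + (y * z' + z * (y' + z')) by ring, map_add, h1, add_zero,
    map_add, map_add, lead_eq_zero_of_mem_wIdeal hz, lead_eq_zero_of_mem_wIdeal hz', add_zero,
    add_zero, lead_apply, lead_apply, lead_apply, comp_eq_self (mul_mem_homInt hy hy'),
    comp_eq_self hy, comp_eq_self hy', map_mul]

theorem mul_mem_srcY {i j : ℤ} {p q : Rz B d} (hp : p ∈ srcX B d K i) (hq : q ∈ srcY B d K j) :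
    p * q ∈ srcY B d K (i + j) := by
  refine ⟨mul_mem_srcX hp hq.1, ?_⟩
  rw [SetLike.mem_coe, LinearMap.mem_ker, lead_mul hp hq.1, LinearMap.mem_ker.1 hq.2, mul_zero]

/-- The number of monomials of an integer degree. -/
def monDeg (d : ℕ) (j : ℤ) : ℕ := if 0 ≤ j then d.multichoose j.toNat else 0

theorem length_residueField : Module.length B (ResidueField B) = 1 := by
  rw [Module.length_eq_of_surjective (R := ResidueField B) (S := B) residue_surjective]
  exact Module.length_eq_one _ _

theorem len_srcY_srcX_le (j : ℤ) :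
    len (srcY B d K j) (srcX B d K j) ≤ (monDeg d j : ℕ∞) := by
  classical
  rcases lt_or_ge j 0 with hj | hj
  · rw [len_eq_zero]
    · exact zero_le
    · refine fun p hp => ⟨hp, ?_⟩
      refine LinearMap.mem_ker.2 (MvPolynomial.ext _ _ fun α => ?_)
      rw [coeff_lead, if_neg (by omega), coeff_zero]
  let I := (univ : Finset (Fin d)).finsuppAntidiag j.toNat
  refine (len_pi_le (fun α : I => (Algebra.linearMap B (ResidueField B)) ∘ₗ
    (MvPolynomial.lcoeff B (α : Fin d →₀ ℕ))) (P := srcY B d K j) (N := srcX B d K j) (fun _ => ⊥) (fun _ => ⊤) (fun _ _ _ => trivial)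
    fun p hp h => ⟨hp, ?_⟩).trans (le_of_eq ?_)
  · refine LinearMap.mem_ker.2 (MvPolynomial.ext _ _ fun α => ?_)
    rw [coeff_lead, coeff_zero]
    split_ifs with hd
    · have hα : α ∈ I := by
        refine Finset.mem_finsuppAntidiag.2 ⟨?_, subset_univ _⟩
        rw [← Finsupp.degree_eq_sum]
        omega
      exact (Submodule.mem_bot B).1 (h ⟨α, hα⟩)
    · rfl
  · have : ∀ α : I, len (⊥ : Submodule B (ResidueField B)) ⊤ = 1 := fun _ => by
      rw [len_bot, Module.length_top, length_residueField]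
    rw [Finset.sum_congr rfl fun α _ => this α]
    simp [I, monDeg, hj, Finset.card_finsuppAntidiag_nat_eq_multichoose]

end local'

end Vale.Agent.P202.Mixed
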