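import Vale.Agent.P202.Mixed.Levels.Src

/-!
# P202 mixed characteristic: almost free modules compared with free ones, degree by degree
-/

noncomputable section

namespace Vale.Agent.P202.Mixed

open IsLocalRing MvPolynomial Finset

universe u

variable {B : Type u} [CommRing B] [IsLocalRing B] {d : ℕ}
  {M : Type u} [AddCommGroup M] [Module (Rz B d) M] [Module B M] [IsScalarTower B (Rz B d) M]

variable (B M) in
/-- Multiplication by a polynomial, over the base. -/
def smulB (P : Rz B d) : M →ₗ[B] M := (LinearMap.lsmul (Rz B d) M P).restrictScalars B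

theorem smulB_apply (P : Rz B d) (m : M) : smulB B M P m = P • m := rfl

theorem span_smul_le {ι : Type*} [Fintype ι] (g : ι → Rz B d) (N : Submodule (Rz B d) M) :
    (Ideal.span (Set.range g) • N).restrictScalars B ≤
      ⨆ i, (N.restrictScalars B).map (smulB B M (g i)) := by
  let S : Submodule B M := ⨆ i, (N.restrictScalars B).map (smulB B M (g i))
  show (Ideal.span (Set.range g) • N).restrictScalars B ≤ S
  intro x hx
  refine Submodule.smul_induction_on (p := fun y => y ∈ S)
    (show x ∈ Ideal.span (Set.range g) • N from hx) ?_ (fun _ _ h h' => S.add_mem h h')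
  intro r hr n hn
  obtain ⟨c, hc⟩ := (Submodule.mem_span_range_iff_exists_fun (Rz B d)).1 hr
  rw [← hc, Finset.sum_smul]
  refine S.sum_mem fun i _ => ?_
  refine Submodule.mem_iSup_of_mem i ⟨c i • n, N.smul_mem _ hn, ?_⟩
  rw [smulB_apply, smul_smul, smul_eq_mul, mul_comm]

variable (B M) in
/-- The powers of the ideal of the operators on the module. -/
def zpow (d : ℕ) [Module (Rz B d) M] [IsScalarTower B (Rz B d) M] (i : ℕ) : Submodule B M :=
  (zIdeal B d ^ i • ⊤ : Submodule (Rz B d) M).restrictScalars B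

theorem zpow_zero : zpow B M d 0 = ⊤ := by
  simp [zpow, Ideal.one_eq_top]

theorem smul_mem_zpow {P : Rz B d} {a b c : ℕ} (hP : P ∈ zIdeal B d ^ a) {m : M}
    (hm : m ∈ zpow B M d b) (h : c ≤ a + b) : P • m ∈ zpow B M d c := by
  have := Submodule.smul_mem_smul hP (show m ∈ zIdeal B d ^ b • (⊤ : Submodule (Rz B d) M) from hm)
  rw [← Submodule.smul_assoc, smul_eq_mul, ← pow_add] at this
  exact Submodule.smul_mono_left (Ideal.pow_le_pow_right h) this

theorem monomial_mem_zIdeal_pow {α : Fin d →₀ ℕ} {i : ℕ} (h : i ≤ α.degree) :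
    (monomial α 1 : Rz B d) ∈ zIdeal B d ^ i :=
  (monomial_mem_pow_idealOfVars_iff i α one_ne_zero).2 h

theorem zpow_le_monomials (i : ℕ) :
    zpow B M d i ≤ ⨆ α : ↥((univ : Finset (Fin d)).finsuppAntidiag i),
      (⊤ : Submodule B M).map (smulB B M (monomial (α : Fin d →₀ ℕ) 1)) := by
  have h := span_smul_le (fun α : ↥((univ : Finset (Fin d)).finsuppAntidiag i) =>
      (monomial (α : Fin d →₀ ℕ) 1 : Rz B d)) (⊤ : Submodule (Rz B d) M)
  rw [Submodule.restrictScalars_top] at h
  refine le_trans (le_of_eq ?_) h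
  rw [zpow, show zIdeal B d ^ i = Ideal.span (Set.range
    fun α : ↥((univ : Finset (Fin d)).finsuppAntidiag i) =>
      (monomial (α : Fin d →₀ ℕ) 1 : Rz B d)) from ?_]
  rw [zIdeal, ← idealOfVars, pow_idealOfVars_eq_span]
  congr 1
  ext p
  constructor
  · rintro ⟨α, hα, rfl⟩
    refine ⟨⟨α, Finset.mem_finsuppAntidiag.2 ⟨?_, subset_univ _⟩⟩, rfl⟩
    rw [← Finsupp.degree_eq_sum]
    exact hα
  · rintro ⟨⟨α, hα⟩, rfl⟩
    refine ⟨α, ?_, rfl⟩
    show α.degree = i
    rw [Finsupp.degree_eq_sum]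
    exact (Finset.mem_finsuppAntidiag.1 hα).1

theorem card_monomials (d i : ℕ) :
    Fintype.card ↥((univ : Finset (Fin d)).finsuppAntidiag i) = d.multichoose i := by
  simp [Finset.card_finsuppAntidiag_nat_eq_multichoose]

section AF

variable {x : Fin d → B} {Q K v D₁ E : ℕ}

theorem AlmostFree.len_zpow_one (hAF : AlmostFree B M x Q K v D₁ E) :
    len (zpow B M d 1) ⊤ ≤ ((D₁ + E : ℕ) : ℕ∞) := by
  rw [len_top, zpow, pow_one]
  exact ((Submodule.Quotient.restrictScalarsEquiv B _).length_eq).trans_le hAF.upper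

theorem AlmostFree.len_zpow_succ (hAF : AlmostFree B M x Q K v D₁ E) (i : ℕ) :
    len (zpow B M d (i + 1)) (zpow B M d i) ≤ ((d.multichoose i * (D₁ + E) : ℕ) : ℕ∞) := by
  refine (len_mono (zpow_le_monomials i)).trans ((len_iSup_le _ _).trans ?_)
  refine (Finset.sum_le_sum fun α _ => (len_map_le _ (P := zpow B M d 1) fun m _ hm => ?_).trans
    hAF.len_zpow_one).trans (le_of_eq ?_)
  · exact smul_mem_zpow (monomial_mem_zIdeal_pow (i := i) (by
      rw [Finsupp.degree_eq_sum, (Finset.mem_finsuppAntidiag.1 α.2).1])) hm le_rfl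
  · rw [Finset.sum_const, Finset.card_univ, card_monomials, nsmul_eq_mul]
    push_cast
    rfl

theorem AlmostFree.len_zpow_top (hAF : AlmostFree B M x Q K v D₁ E) :
    ∀ w : ℕ, len (zpow B M d w) ⊤ ≤ ∑ i ∈ range w, len (zpow B M d (i + 1)) (zpow B M d i)
  | 0 => by rw [zpow_zero, len_eq_zero le_rfl]; exact zero_le
  | w + 1 => by
    rw [Finset.sum_range_succ]
    exact (len_triangle _ (zpow B M d w) _).trans
      ((add_le_add le_rfl (len_zpow_top hAF w)).trans (le_of_eq (add_comm _ _)))

end AF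

/-- The weight filtration is almost the filtration by powers of the operators. -/
theorem exists_fil_bound [IsNoetherianRing B] (d K : ℕ) (hK : 1 ≤ K) (J : ℕ) :
    ∃ C : ℕ, ∀ (M : Type u) [AddCommGroup M] [Module (Rz B d) M] [Module B M]
      [IsScalarTower B (Rz B d) M] (x : Fin d → B) (Q v D₁ E : ℕ),
      AlmostFree B M x Q K v D₁ E → ∀ j : ℤ, j ≤ J →
        len (zpow B M d j.toNat) (filB B (d := d) M K j) ≤ ((C * E : ℕ) : ℕ∞) := by
  obtain ⟨T, hT⟩ := IsNoetherian.noetherian (maximalIdeal B)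
  induction J with
  | zero =>
    refine ⟨0, fun M _ _ _ _ x Q v D₁ E _ j hj => ?_⟩
    rw [show j.toNat = 0 by omega, zpow_zero, len_eq_zero le_top]
    exact zero_le
  | succ J ih =>
    obtain ⟨C, hC⟩ := ih
    refine ⟨C + d * C + T.card * (monCount d (J + 1) + C), fun M _ _ _ _ x Q v D₁ E hAF j hj => ?_⟩
    by_cases hjJ : j ≤ J
    · refine (hC M x Q v D₁ E hAF j hjJ).trans (Nat.cast_le.2 (Nat.mul_le_mul_right E ?_))
      omega
    obtain rfl : j = ((J + 1 : ℕ) : ℤ) := by omega
    set i : ℕ := (((J + 1 : ℕ) : ℤ) - K).toNat with hi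
    have hm : (maximalIdeal B).map (MvPolynomial.C : B →+* Rz B d) =
        Ideal.span (Set.range fun t : T => (MvPolynomial.C (t : B) : Rz B d)) := by
      conv_lhs => rw [← hT]
      rw [Ideal.submodule_span_eq, Ideal.map_span]
      congr 1
      ext p
      simp
    have hsub : filB B (d := d) M K ((J + 1 : ℕ) : ℤ) ≤
        (⨆ a, (filB B (d := d) M K (J : ℤ)).map (smulB B M (X a : Rz B d))) ⊔
        ⨆ t : T, (filB B (d := d) M K (((J + 1 : ℕ) : ℤ) - K)).map
          (smulB B M (MvPolynomial.C (t : B) : Rz B d)) := by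
      intro m hm'
      have h1 := Submodule.smul_mono_left (wIdeal_le_step (K := K)
        (show (1 : ℤ) ≤ ((J + 1 : ℕ) : ℤ) by omega)) hm'
      rw [Submodule.sup_smul, Submodule.mul_smul, Submodule.mul_smul, hm,
        show ((J + 1 : ℕ) : ℤ) - 1 = (J : ℤ) by push_cast; ring] at h1
      obtain ⟨y, hy, z, hz, rfl⟩ := Submodule.mem_sup.1 h1
      exact Submodule.add_mem_sup (span_smul_le _ _ hy) (span_smul_le _ _ hz)
    rw [Int.toNat_natCast]
    refine (len_mono hsub).trans ((len_sup_le _ _ _).trans ?_)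
    have hA : len (zpow B M d (J + 1)) (⨆ a, (filB B (d := d) M K (J : ℤ)).map
        (smulB B M (X a : Rz B d))) ≤ ((d * (C * E) : ℕ) : ℕ∞) := by
      refine (len_iSup_le _ _).trans ((Finset.sum_le_sum fun a _ =>
        (len_map_le _ (P := zpow B M d J) fun m _ hm => ?_).trans
          (hC M x Q v D₁ E hAF J le_rfl)).trans (le_of_eq ?_))
      · refine smul_mem_zpow (a := 1) ?_ hm (by omega)
        rw [pow_one]
        exact Ideal.subset_span ⟨a, rfl⟩
      · simp
    have hB : len (zpow B M d (J + 1)) (⨆ t : T, (filB B (d := d) M K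
          (((J + 1 : ℕ) : ℤ) - K)).map (smulB B M (MvPolynomial.C (t : B) : Rz B d))) ≤
        ((T.card * (monCount d (J + 1) + C) * E : ℕ) : ℕ∞) := by
      refine (len_iSup_le _ _).trans ((Finset.sum_le_sum (g := fun _ =>
        (((monCount d (J + 1) + C) * E : ℕ) : ℕ∞)) fun t _ => ?_).trans (le_of_eq ?_))
      · refine (len_triangle _ ((zpow B M d i).map (smulB B M (MvPolynomial.C (t : B) : Rz B d)) ⊔
          zpow B M d (J + 1)) _).trans ?_
        rw [add_mul]
        push_cast
        refine add_le_add ?_ ?_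
        · rw [len_sup_left _ _ le_rfl]
          refine (len_mono (Submodule.map_mono (zpow_le_monomials i))).trans ?_
          rw [Submodule.map_iSup]
          refine (len_iSup_le _ _).trans ?_
          refine (Finset.sum_le_sum (g := fun _ => (E : ℕ∞)) fun α _ => ?_).trans ?_
          · rw [← Submodule.map_comp, show (smulB B M (MvPolynomial.C (t : B) : Rz B d)) ∘ₗ
              (smulB B M (monomial (α : Fin d →₀ ℕ) (1 : B))) =
              (smulB B M (monomial (α : Fin d →₀ ℕ) (1 : B))) ∘ₗ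
              (smulB B M (MvPolynomial.C (t : B) : Rz B d)) from
              LinearMap.ext fun m => smul_comm (MvPolynomial.C (t : B) : Rz B d) _ m,
              Submodule.map_comp]
            refine (len_map_le _ (P := zpow B M d K) fun m _ hm => ?_).trans
              ((len_mono ?_).trans hAF.deep)
            · exact smul_mem_zpow (monomial_mem_zIdeal_pow (i := i) (by
                rw [Finsupp.degree_eq_sum, (Finset.mem_finsuppAntidiag.1 α.2).1])) hm (by omega)
            · rintro _ ⟨m, -, rfl⟩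
              have ht : (t : B) ∈ maximalIdeal B := hT ▸ Submodule.subset_span t.2
              rw [smulB_apply, ← MvPolynomial.algebraMap_eq, IsScalarTower.algebraMap_smul]
              exact Submodule.smul_mem_smul ht Submodule.mem_top
          · rw [Finset.sum_const, Finset.card_univ, card_monomials, nsmul_eq_mul, monCount]
            refine mul_le_mul' (Nat.cast_le.2 ?_) le_rfl
            exact Finset.single_le_sum (f := fun j => d.multichoose j) (fun _ _ => Nat.zero_le _)
              (Finset.mem_range.2 (by omega))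
        · have := hC M x Q v D₁ E hAF (((J + 1 : ℕ) : ℤ) - K) (by omega)
          push_cast at this
          refine le_trans ?_ this
          exact len_map_le _ fun m _ hm => Submodule.mem_sup_left ⟨m, hm, rfl⟩
      · simp [mul_assoc]
    refine (add_le_add hA hB).trans ?_
    rw [← Nat.cast_add]
    refine Nat.cast_le.2 ?_
    nlinarith [Nat.zero_le (C * E)]

section Gens

/-- A module of length at most `N` modulo `P` is generated modulo `P` by at most `N` elements. -/
theorem exists_gens_le {A : Type*} [CommRing A] {X : Type*} [AddCommGroup X] [Module A X] :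
    ∀ (N : ℕ) (P : Submodule A X), len P ⊤ ≤ (N : ℕ∞) →
      ∃ s : Finset X, s.card ≤ N ∧ P ⊔ Submodule.span A (s : Set X) = ⊤
  | 0, P, h => by
    rw [Nat.cast_zero, nonpos_iff_eq_zero, len_top, Module.length_eq_zero_iff,
      Submodule.Quotient.subsingleton_iff] at h
    exact ⟨∅, le_rfl, by simp [h]⟩
  | N + 1, P, h => by
    classical
    by_cases hP : P = ⊤
    · exact ⟨∅, Nat.zero_le _, by simp [hP]⟩
    obtain ⟨y, -, hy⟩ := SetLike.exists_of_lt (lt_top_iff_ne_top.2 hP)
    let P' := P ⊔ Submodule.span A {y}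
    have h1 : 1 ≤ len P P' := by
      rw [Order.one_le_iff_pos, pos_iff_ne_zero, len_eq_quot, ne_eq, Module.length_eq_zero_iff,
        Submodule.Quotient.subsingleton_iff, eq_top_iff]
      intro h'
      exact hy (h' (x := ⟨y, Submodule.mem_sup_right (Submodule.mem_span_singleton_self y)⟩)
        trivial)
    rw [len_add (le_sup_left : P ≤ P') le_top] at h
    have h2 : len P' ⊤ ≤ (N : ℕ∞) := by
      rw [← ENat.add_le_add_iff_left ENat.one_ne_top]
      exact ((add_le_add h1 le_rfl).trans h).trans (by push_cast; rw [add_comm])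
    obtain ⟨s, hs, hs'⟩ := exists_gens_le N P' h2
    refine ⟨insert y s, (Finset.card_insert_le y s).trans (by omega), ?_⟩
    rwa [Finset.coe_insert, Submodule.span_insert, ← sup_assoc]

end Gens

section Main

variable (B d)

/-- Coordinatewise leading parts. -/
def srcXn (K n : ℕ) (j : ℤ) : Submodule B (Fin n → Rz B d) :=
  Submodule.pi Set.univ fun _ => srcX B d K j

/-- Coordinatewise no leading parts. -/
def srcYn (K n : ℕ) (j : ℤ) : Submodule B (Fin n → Rz B d) :=
  Submodule.pi Set.univ fun _ => srcY B d K j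

variable {B d}

theorem mem_srcXn {K n : ℕ} {j : ℤ} {a : Fin n → Rz B d} :
    a ∈ srcXn B d K n j ↔ ∀ i, a i ∈ srcX B d K j := by simp [srcXn]

theorem mem_srcYn {K n : ℕ} {j : ℤ} {a : Fin n → Rz B d} :
    a ∈ srcYn B d K n j ↔ ∀ i, a i ∈ srcY B d K j := by simp [srcYn]

theorem map_mem_filB {K n : ℕ} (θ : (Fin n → Rz B d) →ₗ[Rz B d] M) {j : ℤ}
    {a : Fin n → Rz B d} (ha : ∀ i, a i ∈ wIdeal B d K j) :
    θ a ∈ filB B (d := d) M K j := by
  classical
  rw [pi_eq_sum_univ a, map_sum]
  refine Submodule.sum_mem _ fun i _ => ?_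
  rw [map_smul]
  exact smul_mem_filB (ha i) (u := 0) (by rw [filB_of_nonpos le_rfl]; trivial) (by omega)

theorem map_srcXn_le {K n : ℕ} (θ : (Fin n → Rz B d) →ₗ[Rz B d] M) (j : ℤ) :
    (srcXn B d K n j).map (θ.restrictScalars B) ≤ filB B (d := d) M K j := by
  rintro _ ⟨a, ha, rfl⟩
  exact map_mem_filB θ fun i => srcX_le_wIdeal (mem_srcXn.1 ha i)

theorem map_srcYn_le {K n : ℕ} (hK : 1 ≤ K) (θ : (Fin n → Rz B d) →ₗ[Rz B d] M) (j : ℤ) :
    (srcYn B d K n j).map (θ.restrictScalars B) ≤ filB B (d := d) M K (j + 1) := by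
  rintro _ ⟨a, ha, rfl⟩
  exact map_mem_filB θ fun i => srcY_le_wIdeal hK (mem_srcYn.1 ha i)

theorem len_srcYn_srcXn_le (K n : ℕ) (j : ℤ) :
    len (srcYn B d K n j) (srcXn B d K n j) ≤ ((n * monDeg d j : ℕ) : ℕ∞) := by
  refine (len_pi_le (fun i : Fin n => LinearMap.proj i) (fun _ => srcY B d K j)
    (fun _ => srcX B d K j) (fun a ha i => mem_srcXn.1 ha i)
    (fun a _ h => mem_srcYn.2 h)).trans ?_
  refine (Finset.sum_le_sum fun i _ => len_srcY_srcX_le j).trans (le_of_eq ?_)
  simp

/-- Almost free modules are generated by almost `D₁` elements. -/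
theorem AlmostFree.exists_gens {x : Fin d → B} {Q K v D₁ E : ℕ}
    (hAF : AlmostFree B M x Q K v D₁ E) :
    ∃ (n : ℕ) (θ : (Fin n → Rz B d) →ₗ[Rz B d] M), Function.Surjective θ ∧ n ≤ D₁ + E := by
  obtain ⟨s, hs, hs'⟩ := exists_gens_le _ (zpow B M d 1) hAF.len_zpow_one
  let g : Fin s.card → M := fun i => (s.equivFin.symm i : M)
  refine ⟨s.card, Fintype.linearCombination (Rz B d) g, ?_, hs⟩
  rw [← LinearMap.range_eq_top, Fintype.range_linearCombination]
  set N := Submodule.span (Rz B d) (Set.range g) with hN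
  have h1 : N ⊔ zIdeal B d • ⊤ = ⊤ := by
    refine top_le_iff.1 fun m _ => ?_
    have hm : m ∈ zpow B M d 1 ⊔ Submodule.span B (s : Set M) := hs' ▸ trivial
    obtain ⟨y, hy, z, hz, rfl⟩ := Submodule.mem_sup.1 hm
    rw [add_comm]
    refine Submodule.add_mem_sup ?_ (by rwa [zpow, pow_one] at hy)
    refine (Submodule.span_le (R := B) (p := N.restrictScalars B)).2 (fun w hw => ?_) hz
    exact Submodule.subset_span ⟨s.equivFin ⟨w, hw⟩, by simp [g]⟩
  have h2 : ∀ k : ℕ, N ⊔ zIdeal B d ^ k • ⊤ = ⊤ := by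
    intro k
    induction k with
    | zero => simp [Ideal.one_eq_top]
    | succ k ih =>
      refine top_le_iff.1 (ih.symm.le.trans (sup_le le_sup_left ?_))
      refine (Submodule.smul_mono le_rfl h1.ge).trans ?_
      rw [Submodule.smul_sup, ← Submodule.mul_smul, ← pow_succ]
      exact sup_le (Submodule.smul_le_right.trans le_sup_left) le_sup_right
  simpa [hAF.top_smul] using h2 v

theorem zpow_le_map_srcXn {K n : ℕ} {θ : (Fin n → Rz B d) →ₗ[Rz B d] M}
    (hθ : Function.Surjective θ) (j : ℤ) :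
    zpow B M d j.toNat ≤ (srcXn B d K n j).map (θ.restrictScalars B) := by
  intro m hm
  change m ∈ zIdeal B d ^ j.toNat • (⊤ : Submodule (Rz B d) M) at hm
  rw [← LinearMap.range_eq_top.2 hθ, LinearMap.range_eq_map, ← Submodule.map_smul''] at hm
  obtain ⟨a, ha, rfl⟩ := hm
  refine ⟨a, mem_srcXn.2 fun i => mem_srcX_of_zIdeal_pow ?_, rfl⟩
  have h := Submodule.mem_map_of_mem (f := LinearMap.proj (R := Rz B d)
    (φ := fun _ : Fin n => Rz B d) i) ha
  rw [Submodule.map_smul''] at h
  simpa using Submodule.smul_mono le_rfl le_top h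

/-- The free part of one graded piece is almost as long as expected. -/
theorem AlmostFree.le_len_image {x : Fin d → B} {Q K v D₁ E : ℕ}
    (hAF : AlmostFree B M x Q K v D₁ E) {C n : ℕ} {θ : (Fin n → Rz B d) →ₗ[Rz B d] M}
    (hθ : Function.Surjective θ) {j : ℕ} (hj : j < v)
    (hC : len (zpow B M d (j + 1)) (filB B (d := d) M K ((j : ℤ) + 1)) ≤ ((C * E : ℕ) : ℕ∞)) :
    ((D₁ * d.multichoose j : ℕ) : ℕ∞) ≤
      len (filB B (d := d) M K ((j : ℤ) + 1))
        ((srcXn B d K n j).map (θ.restrictScalars B)) +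
          (((C + monCount d v + 1) * E : ℕ) : ℕ∞) := by
  set I := len (filB B (d := d) M K ((j : ℤ) + 1))
      ((srcXn B d K n j).map (θ.restrictScalars B)) with hI
  have h1 : len (zpow B M d (j + 1)) (zpow B M d j) ≤ I + ((C * E : ℕ) : ℕ∞) := by
    refine (len_triangle _ (filB B (d := d) M K ((j : ℤ) + 1)) _).trans ?_
    rw [add_comm]
    refine add_le_add (len_mono ?_) hC
    simpa using zpow_le_map_srcXn (K := K) hθ (j : ℤ)
  have h2 : Module.length B M ≤ I + ((C * E : ℕ) : ℕ∞) +
      ∑ i ∈ (range v).erase j, ((d.multichoose i * (D₁ + E) : ℕ) : ℕ∞) := by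
    have h := hAF.len_zpow_top v
    rw [show zpow B M d v = ⊥ by rw [zpow, hAF.top_smul, Submodule.restrictScalars_bot],
      len_bot, Module.length_top, ← Finset.add_sum_erase _ _ (Finset.mem_range.2 hj)] at h
    exact h.trans (add_le_add h1 (Finset.sum_le_sum fun i _ => hAF.len_zpow_succ i))
  obtain ⟨a, ha⟩ := ENat.ne_top_iff_exists.1
    (ne_top_of_le_ne_top hAF.finite (len_le_length _ _) : I ≠ ⊤)
  have h3 := hAF.lower.trans (add_le_add h2 le_rfl)
  rw [← ha, ← Nat.cast_sum] at h3
  rw [← ha]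
  norm_cast at h3 ⊢
  rw [monCount, ← Finset.add_sum_erase _ _ (Finset.mem_range.2 hj), mul_add, Finset.mul_sum] at h3
  have h4 : ∑ i ∈ (range v).erase j, d.multichoose i * (D₁ + E) =
      (∑ i ∈ (range v).erase j, D₁ * d.multichoose i) +
        (∑ i ∈ (range v).erase j, d.multichoose i) * E := by
    rw [Finset.sum_mul, ← Finset.sum_add_distrib]
    exact Finset.sum_congr rfl fun i _ => by ring
  have h5 : (∑ i ∈ (range v).erase j, d.multichoose i) * E ≤ monCount d v * E :=
    Nat.mul_le_mul_right E (Finset.sum_le_sum_of_subset (Finset.erase_subset _ _))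
  rw [Nat.add_mul, Nat.add_mul, one_mul]
  omega

/-- Almost free modules receive free ones, almost isomorphically in each degree. -/
theorem exists_cmp [IsNoetherianRing B] (d Q K v : ℕ) (hK : 1 ≤ K) (hv : 1 ≤ v)
    (x : Fin d → B) :
    ∃ C : ℕ, ∀ (M : Type u) [AddCommGroup M] [Module (Rz B d) M] [Module B M]
      [IsScalarTower B (Rz B d) M] (D₁ E : ℕ), AlmostFree B M x Q K v D₁ E →
      ∃ (n : ℕ) (θ : (Fin n → Rz B d) →ₗ[Rz B d] M), Function.Surjective θ ∧
        n ≤ D₁ + E ∧ D₁ ≤ n + C * E ∧ ∀ j : ℤ, j < v →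
          len ((srcXn B d K n j).map (θ.restrictScalars B) ⊔ filB B (d := d) M K (j + 1))
            (filB B (d := d) M K j) ≤ ((C * E : ℕ) : ℕ∞) ∧
          len (srcYn B d K n j)
            (srcXn B d K n j ⊓ (filB B (d := d) M K (j + 1)).comap (θ.restrictScalars B)) ≤
              ((C * E : ℕ) : ℕ∞) := by
  obtain ⟨C, hC⟩ := exists_fil_bound (B := B) d K hK v
  refine ⟨C + 2 * monCount d v + 1, fun M _ _ _ _ D₁ E hAF => ?_⟩
  obtain ⟨n, θ, hθ, hn⟩ := hAF.exists_gens
  have hker : ∀ j : ℕ, j < v →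
      len (srcYn B d K n j) (srcXn B d K n j ⊓
        (filB B (d := d) M K ((j : ℤ) + 1)).comap (θ.restrictScalars B)) +
        ((D₁ * d.multichoose j : ℕ) : ℕ∞) ≤
          ((n * d.multichoose j + (C + monCount d v + 1) * E : ℕ) : ℕ∞) := by
    intro j hj
    have hCj : len (zpow B M d (j + 1)) (filB B (d := d) M K ((j : ℤ) + 1)) ≤
        ((C * E : ℕ) : ℕ∞) := by
      simpa using hC M x Q v D₁ E hAF ((j : ℤ) + 1) (by omega)
    refine (add_le_add le_rfl (hAF.le_len_image hθ hj hCj)).trans ?_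
    rw [← add_assoc, ← len_eq_add_map (θ.restrictScalars B) _ _ _ fun a _ ha =>
      map_srcYn_le hK θ j ⟨a, ha, rfl⟩]
    push_cast
    refine add_le_add ((len_srcYn_srcXn_le K n (j : ℤ)).trans ?_) le_rfl
    simp [monDeg]
  refine ⟨n, θ, hθ, hn, ?_, fun j hj => ⟨?_, ?_⟩⟩
  · have h := (le_add_self.trans (hker 0 hv))
    rw [Nat.multichoose_zero_right, mul_one, Nat.cast_le, mul_one] at h
    refine h.trans (Nat.add_le_add_left (Nat.mul_le_mul_right E ?_) n)
    omega
  · refine (len_anti ((zpow_le_map_srcXn hθ j).trans le_sup_left) _).trans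
      ((hC M x Q v D₁ E hAF j hj.le).trans (Nat.cast_le.2 (Nat.mul_le_mul_right E ?_)))
    omega
  · rcases lt_or_ge j 0 with hj0 | hj0
    · refine (len_mono inf_le_left).trans ((len_srcYn_srcXn_le K n j).trans ?_)
      simp [monDeg, not_le.2 hj0]
    obtain ⟨i, rfl⟩ := Int.eq_ofNat_of_zero_le hj0
    have hi : i < v := by omega
    have hk := hker i hi
    have h5 : d.multichoose i ≤ monCount d v :=
      Finset.single_le_sum (f := fun j => d.multichoose j) (fun _ _ => Nat.zero_le _)
        (Finset.mem_range.2 hi)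
    have h6 : n * d.multichoose i ≤ D₁ * d.multichoose i + monCount d v * E :=
      ((Nat.mul_le_mul_right _ hn).trans_eq (add_mul _ _ _)).trans
        (Nat.add_le_add_left ((Nat.mul_comm _ _).trans_le (Nat.mul_le_mul_right E h5)) _)
    refine (ENat.add_le_add_iff_right (k := ((D₁ * d.multichoose i : ℕ) : ℕ∞))
      (ENat.natCast_ne_top _)).1 (hk.trans ?_)
    rw [← Nat.cast_add, Nat.cast_le]
    simp only [Nat.add_mul, Nat.mul_assoc]
    omega

end Main

end Vale.Agent.P202.Mixed
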