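import Vale.Agent.P202.Mixed.Levels.Src

/-!
# P202 mixed characteristic: the Koszul cochain complex on powers of the variables

Below the top position it is contracted monomial by monomial, over any ring.
-/

noncomputable section

namespace Vale.Agent.P202.Mixed

open MvPolynomial Finset

universe u

theorem kosSign_mul_self {d : ℕ} (S : Finset (Fin d)) (a : Fin d) :
    kosSign S a * kosSign S a = 1 := by
  rw [kosSign, ← pow_add, ← two_mul, pow_mul, neg_one_sq, one_pow]

theorem kosSign_cross {d : ℕ} (S : Finset (Fin d)) {a b : Fin d} (ha : a ∉ S) (hb : b ∉ S)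
    (hab : a ≠ b) :
    kosSign (insert b S) a * kosSign (insert a S) b + kosSign S b * kosSign S a = 0 := by
  have h := kosSign_swap S ha hb hab
  have h1 := kosSign_mul_self S a
  have h2 := kosSign_mul_self (insert b S) a
  linear_combination (kosSign S a * kosSign (insert b S) a) * h -
    (kosSign (insert a S) b * kosSign (insert b S) a) * h1 - (kosSign S a * kosSign S b) * h2

section General

variable {A : Type u} [CommRing A] {d : ℕ}

/-- The Koszul differential, summed over the added element. -/
theorem kosMat_sum_smul {M : Type*} [AddCommGroup M] [Module A M] (z : Fin d → A)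
    (f : Finset (Fin d) → M) (T : Finset (Fin d)) :
    ∑ S, kosMat z T S • f S = ∑ b ∈ T, kosSign (T.erase b) b • (z b • f (T.erase b)) := by
  classical
  simp only [kosMat, Matrix.of_apply, Finset.sum_smul, Finset.sum_filter]
  rw [Finset.sum_comm, ← Finset.sum_filter_add_sum_filter_not univ (fun b => b ∈ T)]
  have h2 : ∑ b ∈ univ.filter (fun b => b ∉ T), ∑ S : Finset (Fin d),
      (if b ∉ S ∧ T = insert b S then (kosSign S b • z b) • f S else 0) = 0 := by
    refine Finset.sum_eq_zero fun b hb => Finset.sum_eq_zero fun S _ => if_neg fun h => ?_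
    exact (Finset.mem_filter.1 hb).2 (h.2 ▸ Finset.mem_insert_self b S)
  simp only [ite_smul, zero_smul]
  rw [h2, add_zero]
  refine Finset.sum_congr (by ext; simp) fun b hb => ?_
  rw [Fintype.sum_eq_single (T.erase b) fun S hS => if_neg fun h => hS (by
    rw [h.2, Finset.erase_insert h.1]), if_pos ⟨Finset.notMem_erase b T,
      (Finset.insert_erase hb).symm⟩, smul_assoc]

end General

section Poly

variable {A : Type u} [CommRing A] {d : ℕ} (B : ℕ)

/-- The Koszul differential on `B`-th powers, on polynomials. -/
def kosPow (f : Finset (Fin d) → Rz A d) (T : Finset (Fin d)) : Rz A d :=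
  ∑ b ∈ T, kosSign (T.erase b) b • ((X b : Rz A d) ^ B * f (T.erase b))

/-- The first index where the contraction may act. -/
def GoodStep (S : Finset (Fin d)) (α : Fin d →₀ ℕ) (a : Fin d) : Prop :=
  a ∉ S ∧ ∀ b < a, b ∈ S ∧ α b < B

open Classical in
/-- The contraction. -/
def kosHom (f : Finset (Fin d) → Rz A d) (S : Finset (Fin d)) : Rz A d :=
  ∑ a, kosSign S a • ∑ α ∈ ((f (insert a S)).divMonomial (Finsupp.single a B)).support.filter
    (fun α => GoodStep B S α a),
      monomial α (coeff (α + Finsupp.single a B) (f (insert a S)))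

open Classical in
theorem coeff_kosHom (f : Finset (Fin d) → Rz A d) (S : Finset (Fin d)) (α : Fin d →₀ ℕ) :
    coeff α (kosHom B f S) = ∑ a, if GoodStep B S α a then
      kosSign S a • coeff (α + Finsupp.single a B) (f (insert a S)) else 0 := by
  rw [kosHom, coeff_sum]
  refine Finset.sum_congr rfl fun a _ => ?_
  rw [coeff_smul, coeff_sum]
  simp only [coeff_monomial, Finset.sum_ite_eq']
  simp only [Finset.mem_filter, mem_support_iff, coeff_divMonomial, ne_eq]
  by_cases hg : GoodStep B S α a
  · rw [if_pos hg, add_comm (Finsupp.single a B) α]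
    by_cases h0 : coeff (α + Finsupp.single a B) (f (insert a S)) = 0
    · simp [h0]
    · rw [if_pos ⟨h0, hg⟩]
  · rw [if_neg hg, if_neg fun h => hg h.2, smul_zero]

theorem coeff_kosPow (f : Finset (Fin d) → Rz A d) (T : Finset (Fin d)) (α : Fin d →₀ ℕ) :
    coeff α (kosPow B f T) = ∑ b ∈ T, if B ≤ α b then
      kosSign (T.erase b) b • coeff (α - Finsupp.single b B) (f (T.erase b)) else 0 := by
  classical
  rw [kosPow, coeff_sum]
  refine Finset.sum_congr rfl fun b _ => ?_
  rw [coeff_smul, X_pow_eq_monomial, coeff_monomial_mul']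
  simp only [Finsupp.single_le_iff, one_mul]
  split_ifs with h
  · rfl
  · exact smul_zero _

/-- The contraction identity away from the top. -/
theorem kosPow_kosHom (f : Finset (Fin d) → Rz A d) {T : Finset (Fin d)} (hT : T ≠ univ) :
    kosPow B (kosHom B f) T + kosHom B (kosPow B f) T = f T := by
  classical
  ext α
  rw [coeff_add]
  let P : Finset (Fin d) := univ.filter fun a => a ∉ T ∨ B ≤ α a
  have hP : P.Nonempty := by
    obtain ⟨a, ha⟩ : ∃ a, a ∉ T := by
      by_contra h
      push_neg at h
      exact hT (Finset.eq_univ_iff_forall.2 h)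
    exact ⟨a, by simp [P, ha]⟩
  set a := P.min' hP with ha_def
  have ha : a ∉ T ∨ B ≤ α a := (Finset.mem_filter.1 (P.min'_mem hP)).2
  have hlt : ∀ b < a, b ∈ T ∧ α b < B := fun b hb => by
    have : b ∉ P := fun h => (P.min'_le b h).not_gt hb
    simpa [P] using this
  -- second term
  have h2 : coeff α (kosHom B (kosPow B f) T) = if a ∈ T then 0 else
      kosSign T a • coeff (α + Finsupp.single a B) (kosPow B f (insert a T)) := by
    rw [coeff_kosHom, Fintype.sum_eq_single a]
    · by_cases h : a ∈ T
      · rw [if_pos h, if_neg fun g => g.1 h]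
      · rw [if_neg h, if_pos ⟨h, hlt⟩]
    · intro b hb
      refine if_neg fun g => ?_
      rcases lt_or_gt_of_ne hb with h | h
      · exact g.1 (hlt b h).1
      · obtain ⟨g1, g2⟩ := g.2 a h
        rcases ha with h' | h'
        · exact h' g1
        · omega
  -- the inner value of the first term
  have h1 : ∀ b ∈ T, B ≤ α b → coeff (α - Finsupp.single b B) (kosHom B f (T.erase b)) =
      if a ∈ T ∧ a ≠ b then 0 else
        kosSign (T.erase b) a • coeff (α - Finsupp.single b B + Finsupp.single a B)
          (f (insert a (T.erase b))) := by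
    intro b hbT hbB
    have hab : a ≤ b := le_of_not_gt fun h => by
      have := (hlt b h).2
      omega
    have hlo : ∀ c < a, c ∈ T.erase b ∧ (α - Finsupp.single b B : Fin d →₀ ℕ) c < B := by
      intro c hc
      have hcb : c ≠ b := fun h => by subst h; exact absurd hab (not_le.2 hc)
      refine ⟨Finset.mem_erase.2 ⟨hcb, (hlt c hc).1⟩, ?_⟩
      rw [Finsupp.tsub_apply, Finsupp.single_eq_of_ne hcb, tsub_zero]
      exact (hlt c hc).2
    rw [coeff_kosHom, Fintype.sum_eq_single a]
    · by_cases h : a ∈ T ∧ a ≠ b
      · rw [if_pos h, if_neg fun g => g.1 (Finset.mem_erase.2 ⟨h.2, h.1⟩)]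
      · rw [if_neg h, if_pos ⟨fun g => h ⟨Finset.mem_of_mem_erase g, (Finset.mem_erase.1 g).1⟩,
          hlo⟩]
    · intro c hc
      refine if_neg fun g => ?_
      rcases lt_or_gt_of_ne hc with h | h
      · exact g.1 (hlo c h).1
      · obtain ⟨g1, g2⟩ := g.2 a h
        rw [Finset.mem_erase] at g1
        rw [Finsupp.tsub_apply, Finsupp.single_eq_of_ne g1.1, tsub_zero] at g2
        rcases ha with h' | h'
        · exact h' g1.2
        · omega
  rw [coeff_kosPow, h2]
  by_cases haT : a ∈ T
  · rw [if_pos haT, add_zero]
    have haB : B ≤ α a := ha.resolve_left (not_not.2 haT)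
    rw [Finset.sum_eq_single a]
    · rw [if_pos haB, h1 a haT haB, if_neg fun h => h.2 rfl, Finset.insert_erase haT,
        tsub_add_cancel_of_le (Finsupp.single_le_iff.2 haB), smul_smul, kosSign_mul_self,
        one_smul]
    · intro b hb hne
      split_ifs with hB
      · rw [h1 b hb hB, if_pos ⟨haT, hne.symm⟩, smul_zero]
      · rfl
    · exact fun h => absurd haT h
  · rw [if_neg haT, coeff_kosPow, Finset.sum_insert haT, smul_add, Finset.smul_sum]
    have e0 : kosSign T a • (if B ≤ (α + Finsupp.single a B : Fin d →₀ ℕ) a then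
        kosSign ((insert a T).erase a) a • coeff (α + Finsupp.single a B - Finsupp.single a B)
          (f ((insert a T).erase a)) else 0) = coeff α (f T) := by
      rw [Finset.erase_insert haT, if_pos (by simp), add_tsub_cancel_right, smul_smul,
        kosSign_mul_self, one_smul]
    rw [add_left_comm, e0, add_eq_left, ← Finset.sum_add_distrib]
    refine Finset.sum_eq_zero fun b hb => ?_
    have hne : a ≠ b := fun h => haT (h ▸ hb)
    have happ : (α + Finsupp.single a B : Fin d →₀ ℕ) b = α b := by
      rw [Finsupp.add_apply, Finsupp.single_eq_of_ne hne.symm, add_zero]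
    rw [happ]
    split_ifs with hB
    · rw [h1 b hb hB, if_neg fun h => haT h.1, smul_smul, smul_smul,
        Finset.erase_insert_of_ne hne]
      have hexp : α - Finsupp.single b B + Finsupp.single a B =
          α + Finsupp.single a B - Finsupp.single b B :=
        (tsub_add_eq_add_tsub (Finsupp.single_le_iff.2 hB))
      rw [hexp, ← add_smul]
      have := kosSign_cross (T.erase b) (fun h => haT (Finset.mem_of_mem_erase h))
        (Finset.notMem_erase b T) hne
      rw [Finset.insert_erase hb] at this
      rw [add_comm, this, zero_smul]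
    · rw [smul_zero, add_zero]

/-- Below the top position, a homogeneous family with boundary in `I` is a boundary modulo `I`. -/
theorem kos_exact (I : Ideal A) {j : ℤ} {p : ℕ} (hp : 1 ≤ p) (f : Finset (Fin d) → Rz A d)
    (hpos : ∀ S, d - S.card ≠ p → f S = 0)
    (hdeg : ∀ S, f S ∈ homInt A d (j + ((B * S.card : ℕ) : ℤ)))
    (hcyc : ∀ T α, coeff α (kosPow B f T) ∈ I) :
    ∃ g : Finset (Fin d) → Rz A d, (∀ S, d - S.card ≠ p + 1 → g S = 0) ∧
      (∀ S, g S ∈ homInt A d (j + ((B * S.card : ℕ) : ℤ))) ∧
      ∀ T α, coeff α (f T - kosPow B g T) ∈ I := by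
  classical
  have hins : ∀ (S : Finset (Fin d)) a, a ∉ S →
      (insert a S).card = S.card + 1 ∧ S.card + 1 ≤ d := fun S a ha => by
    have h1 : (insert a S).card ≤ Fintype.card (Fin d) := Finset.card_le_univ _
    rw [Finset.card_insert_of_notMem ha, Fintype.card_fin] at h1
    exact ⟨Finset.card_insert_of_notMem ha, h1⟩
  refine ⟨kosHom B f, fun S hS => ?_, fun S => mem_homInt.2 fun α hα => ?_, fun T α => ?_⟩
  · refine MvPolynomial.ext _ _ fun α => ?_
    rw [coeff_kosHom, coeff_zero]
    refine Finset.sum_eq_zero fun a _ => ?_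
    split_ifs with g
    · obtain ⟨h1, h2⟩ := hins S a g.1
      rw [hpos (insert a S) (by rw [h1]; omega), coeff_zero, smul_zero]
    · rfl
  · rw [coeff_kosHom] at hα
    obtain ⟨a, -, h0⟩ := Finset.exists_ne_zero_of_sum_ne_zero hα
    split_ifs at h0 with g
    · have hne : coeff (α + Finsupp.single a B) (f (insert a S)) ≠ 0 := fun h => h0 (by
        rw [h, smul_zero])
      have := mem_homInt.1 (hdeg (insert a S)) _ hne
      rw [map_add, Finsupp.degree_single, (hins S a g.1).1] at this
      push_cast at this ⊢
      linarith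
    · exact absurd rfl h0
  · by_cases hT : T = univ
    · have hzero : kosPow B (kosHom B f) T = 0 := by
        refine Finset.sum_eq_zero fun b hb => ?_
        have hS : kosHom B f (T.erase b) = 0 := by
          refine MvPolynomial.ext _ _ fun β => ?_
          rw [coeff_kosHom, coeff_zero]
          refine Finset.sum_eq_zero fun a _ => ?_
          split_ifs with g
          · have : insert a (T.erase b) = univ := by
              subst hT
              rcases eq_or_ne a b with rfl | hab
              · exact Finset.insert_erase hb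
              · exact absurd (Finset.mem_erase.2 ⟨hab, Finset.mem_univ a⟩) g.1
            rw [this, hpos univ (by rw [Finset.card_univ, Fintype.card_fin]; omega), coeff_zero,
              smul_zero]
          · rfl
        rw [hS, mul_zero, smul_zero]
      rw [hzero, sub_zero, hT, hpos univ (by rw [Finset.card_univ, Fintype.card_fin]; omega),
        coeff_zero]
      exact I.zero_mem
    · rw [← kosPow_kosHom B f hT, add_sub_cancel_left, coeff_kosHom]
      refine I.sum_mem fun a _ => ?_
      split_ifs
      · exact zsmul_mem (hcyc _ _) _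
      · exact I.zero_mem

end Poly

end Vale.Agent.P202.Mixed
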