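import Vale.Agent.P202.Mixed.Levels.Lead
import Vale.Agent.P202.Mixed.Levels.Exact

/-!
# P202 mixed characteristic: the Koszul columns of an almost free module

Above position zero the graded pieces of the Koszul complex on powers of the operators have
negligible homology.
-/

noncomputable section

namespace Vale.Agent.P202.Mixed

open IsLocalRing MvPolynomial Finset

universe u

variable {B : Type u} [CommRing B] [IsLocalRing B] {d K n : ℕ} (Bq : ℕ)

/-- The levels of one column. -/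
def colT (Bq : ℕ) (j : ℤ) (S : Finset (Fin d)) : ℤ := j + ((Bq * S.card : ℕ) : ℤ)

theorem zKos_dA {M : Type u} [AddCommGroup M] [Module (Rz B d) M]
    (f : (zKos B d Bq).ι → M) (T : Finset (Fin d)) :
    (zKos B d Bq).dA M f T =
      ∑ b ∈ T, kosSign (T.erase b) b • (((X b : Rz B d) ^ Bq) • f (T.erase b)) :=
  kosMat_sum_smul (fun a => (X a : Rz B d) ^ Bq) f T

theorem zKos_mat_mem (j : ℤ) (T S : Finset (Fin d)) :
    (zKos B d Bq).mat T S ∈ homInt B d (colT Bq j T - colT Bq j S) := by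
  show kosMat (fun a => (X a : Rz B d) ^ Bq) T S ∈ _
  rw [kosMat, Matrix.of_apply]
  refine Submodule.sum_mem _ fun a ha => zsmul_mem ?_ _
  obtain ⟨haS, rfl⟩ := (Finset.mem_filter.1 ha).2
  have h : colT Bq j (insert a S) - colT Bq j S = (Bq : ℤ) := by
    rw [colT, colT, Finset.card_insert_of_notMem haS]
    push_cast
    ring
  rw [h, X_pow_eq_monomial]
  have := monomial_mem_homInt (A := B) (Finsupp.single a Bq) 1
  rwa [Finsupp.degree_single] at this

theorem zKos_mat_srcX (j : ℤ) (T S : Finset (Fin d)) (_h : (zKos B d Bq).mat T S ≠ 0) :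
    (zKos B d Bq).mat T S ∈ srcX B d K (colT Bq j T - colT Bq j S) :=
  mem_srcX_of_homInt (zKos_mat_mem Bq j T S)

theorem coeff_mem_of_srcY {j : ℤ} {p : Rz B d} (hp : p ∈ homInt B d j) (hl : lead B d j p = 0)
    (α : Fin d →₀ ℕ) : coeff α p ∈ maximalIdeal B := by
  by_cases h : (α.degree : ℤ) = j
  · have := congrArg (coeff α) hl
    rwa [coeff_lead, if_pos h, coeff_zero, residue_eq_zero_iff] at this
  · by_contra h0
    exact h (mem_homInt.1 hp α fun he => h0 (he ▸ (maximalIdeal B).zero_mem))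

theorem mem_srcY_of_coeff {j : ℤ} {p : Rz B d} (hp : p ∈ homInt B d j)
    (h : ∀ α, coeff α p ∈ maximalIdeal B) : p ∈ srcY B d K j := by
  refine ⟨mem_srcX_of_homInt hp, ?_⟩
  refine LinearMap.mem_ker.2 (MvPolynomial.ext _ _ fun α => ?_)
  rw [coeff_lead, coeff_zero]
  split_ifs
  · exact (residue_eq_zero_iff _).2 (h α)
  · rfl

theorem sub_compInt_mem_srcY {j : ℤ} {p : Rz B d} (hp : p ∈ srcX B d K j) :
    p - compInt B d j p ∈ srcY B d K j := by
  refine ⟨Submodule.sub_mem _ hp (mem_srcX_of_homInt (comp_mem_homInt j p)), ?_⟩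
  rw [SetLike.mem_coe, LinearMap.mem_ker, map_sub, lead_apply, lead_apply,
    comp_eq_self (comp_mem_homInt j p), sub_self]

theorem dA_src_mem_homInt {F : FreeCx (Rz B d)} {T : F.ι → ℤ}
    (hF : ∀ l g, F.mat l g ∈ homInt B d (T l - T g)) {a : F.ι → Fin n → Rz B d}
    (ha : ∀ g i, a g i ∈ homInt B d (T g)) (l : F.ι) (i : Fin n) :
    F.dA (Fin n → Rz B d) a l i ∈ homInt B d (T l) := by
  rw [dA_src_apply]
  refine Submodule.sum_mem _ fun g _ => ?_
  have h := mul_mem_homInt (hF l g) (ha g i)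
  rwa [sub_add_cancel] at h

theorem zKos_dA_eq_kosPow (a : (zKos B d Bq).ι → Fin n → Rz B d) (S : Finset (Fin d))
    (i : Fin n) :
    (zKos B d Bq).dA (Fin n → Rz B d) a S i = kosPow Bq (fun S' => a S' i) S := by
  have h := congrFun (zKos_dA (d := d) Bq a S) i
  rw [Finset.sum_apply] at h
  exact h

theorem dA_mem_of_sub {F : FreeCx (Rz B d)} {T : F.ι → ℤ}
    (hF : ∀ l g, F.mat l g ≠ 0 → F.mat l g ∈ srcX B d K (T l - T g))
    {a b : F.ι → Fin n → Rz B d} (ha : F.dA (Fin n → Rz B d) a ∈ srcLvl₀ F K n T)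
    (hb : a - b ∈ srcLvl₀ F K n T) : F.dA (Fin n → Rz B d) b ∈ srcLvl₀ F K n T := by
  have h := Submodule.sub_mem _ ha (dA_mem_srcLvl₀ hF hb)
  rwa [← map_sub, sub_sub_cancel] at h

/-- The homogeneous parts of a cycle of the source column. -/
theorem coeff_kosPow_mem_of_cycle (j : ℤ) {a : (zKos B d Bq).ι → Fin n → Rz B d}
    (hX : a ∈ srcLvl (zKos B d Bq) K n (colT Bq j))
    (hY : (zKos B d Bq).dA (Fin n → Rz B d) a ∈ srcLvl₀ (zKos B d Bq) K n (colT Bq j))
    (i : Fin n) (S : Finset (Fin d)) (α : Fin d →₀ ℕ) :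
    coeff α (kosPow Bq (fun S' => compInt B d (colT Bq j S') (a S' i)) S) ∈ maximalIdeal B := by
  let fa : (zKos B d Bq).ι → Fin n → Rz B d := fun S i => compInt B d (colT Bq j S) (a S i)
  have hsub : a - fa ∈ srcLvl₀ (zKos B d Bq) K n (colT Bq j) :=
    mem_srcLvl₀.2 fun S i => sub_compInt_mem_srcY (mem_srcLvl.1 hX S i)
  have h1 : (zKos B d Bq).dA (Fin n → Rz B d) fa ∈ srcLvl₀ (zKos B d Bq) K n (colT Bq j) :=
    dA_mem_of_sub (F := zKos B d Bq) (T := colT Bq j) (fun l g h => zKos_mat_srcX Bq j l g h)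
      hY hsub
  have h2 := (mem_srcLvl₀.1 h1) S i
  have h3 := dA_src_mem_homInt (F := zKos B d Bq) (T := colT Bq j) (a := fa)
    (fun l g => zKos_mat_mem Bq j l g) (fun g i => comp_mem_homInt _ _) S i
  have h4 := coeff_mem_of_srcY h3 (LinearMap.mem_ker.1 h2.2) α
  rw [zKos_dA_eq_kosPow] at h4
  exact h4

/-- The source column is exact above position zero. -/
theorem col_src_exact (j : ℤ) {p : ℤ} (hp : 1 ≤ p) :
    ((zKos B d Bq).diff (Fin n → Rz B d) B).cycles (srcLvl (zKos B d Bq) K n (colT Bq j))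
        (srcLvl₀ (zKos B d Bq) K n (colT Bq j)) p ≤
      ((zKos B d Bq).diff (Fin n → Rz B d) B).bdries (srcLvl (zKos B d Bq) K n (colT Bq j))
        (srcLvl₀ (zKos B d Bq) K n (colT Bq j)) p := by
  classical
  obtain ⟨q, rfl⟩ := Int.eq_ofNat_of_zero_le (show 0 ≤ p by omega)
  intro a ha
  obtain ⟨ha1, ha2, ha3⟩ := (Diff.mem_cycles _).1 ha
  have hpos : ∀ S : Finset (Fin d), d - S.card ≠ q → a S = 0 := fun S hS =>
    ha2 S (show ((d - S.card : ℕ) : ℤ) ≠ (q : ℤ) by exact_mod_cast hS)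
  choose g hg1 hg2 hg3 using fun i : Fin n =>
    kos_exact Bq (maximalIdeal B) (j := j) (show 1 ≤ q by omega)
      (fun S => compInt B d (colT Bq j S) (a S i)) (fun S hS => by simp [hpos S hS])
      (fun S => comp_mem_homInt _ _)
      (fun S α => coeff_kosPow_mem_of_cycle Bq j ha1 ha3 i S α)
  let w : (zKos B d Bq).ι → Fin n → Rz B d := fun S i => g i S
  have hwdeg : w ∈ ((zKos B d Bq).diff (Fin n → Rz B d) B).deg ((q : ℤ) + 1) :=
    fun S hS => funext fun i => hg1 i S fun h => hS (by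
      show ((d - Finset.card S : ℕ) : ℤ) = (q : ℤ) + 1
      omega)
  refine (Diff.mem_bdries _).2 ⟨w, ⟨mem_srcLvl.2 fun S i => mem_srcX_of_homInt (hg2 i S), hwdeg⟩,
    a - (zKos B d Bq).dA (Fin n → Rz B d) w, ⟨mem_srcLvl₀.2 fun S i => ?_, ?_⟩,
    add_sub_cancel _ _⟩
  · have hw : (zKos B d Bq).dA (Fin n → Rz B d) w S i = kosPow Bq (g i) S :=
      zKos_dA_eq_kosPow Bq w S i
    have hh : kosPow Bq (g i) S ∈ homInt B d (colT Bq j S) := hw ▸
      dA_src_mem_homInt (F := zKos B d Bq) (T := colT Bq j) (a := w)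
        (fun l g => zKos_mat_mem Bq j l g) (fun S' i => hg2 i S') S i
    have e : (a - (zKos B d Bq).dA (Fin n → Rz B d) w) S i = (a S i -
        compInt B d (colT Bq j S) (a S i)) +
        (compInt B d (colT Bq j S) (a S i) - kosPow Bq (g i) S) := by
      rw [← hw]
      exact (sub_add_sub_cancel _ _ _).symm
    rw [e]
    exact Submodule.add_mem _ (sub_compInt_mem_srcY (mem_srcLvl.1 ha1 S i))
      (mem_srcY_of_coeff (Submodule.sub_mem _ (comp_mem_homInt _ _) hh) (hg3 i S))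
  · refine Submodule.sub_mem _ ha2 ?_
    have := ((zKos B d Bq).diff (Fin n → Rz B d) B).d_deg ((q : ℤ) + 1) w hwdeg
    rwa [add_sub_cancel_right] at this

/-- The columns of an almost free module. -/
theorem exists_col_bound [IsNoetherianRing B] (d Q K v : ℕ) (hK : 1 ≤ K) (hv : 1 ≤ v)
    (x : Fin d → B) :
    ∃ C : ℕ, ∀ (M : Type u) [AddCommGroup M] [Module (Rz B d) M] [Module B M]
      [IsScalarTower B (Rz B d) M] (D₁ E : ℕ), AlmostFree B M x Q K v D₁ E →
      ∀ (Bq : ℕ) (j p : ℤ), 1 ≤ p → j + ((Bq * d : ℕ) : ℤ) < v →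
        len (((zKos B d Bq).diff M B).bdries (lvlF B (d := d) M K (colT Bq j))
            (lvlF B (d := d) M K fun S => colT Bq j S + 1) p)
          (((zKos B d Bq).diff M B).cycles (lvlF B (d := d) M K (colT Bq j))
            (lvlF B (d := d) M K fun S => colT Bq j S + 1) p) ≤ ((C * E : ℕ) : ℕ∞) := by
  obtain ⟨C, hC⟩ := exists_cmp (B := B) d Q K v hK hv x
  refine ⟨2 * (Fintype.card (Finset (Fin d)) * C), fun M _ _ _ _ D₁ E hAF Bq j p hp hj => ?_⟩
  obtain ⟨n, θ, -, -, -, hθ⟩ := hC M D₁ E hAF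
  have hT : ∀ S : Finset (Fin d), colT Bq j S < v := fun S => by
    have h1 : S.card ≤ Fintype.card (Fin d) := Finset.card_le_univ _
    rw [Fintype.card_fin] at h1
    have h2 := Nat.mul_le_mul_left Bq h1
    rw [colT]
    omega
  have hpair := chainPair_src (F := zKos B d Bq) (T := colT Bq j) hK
    (fun l g h => zKos_mat_srcX Bq j l g h) θ
  refine (hpair.len_target_le (p - 1) p (by ring)).trans ?_
  rw [len_eq_zero (col_src_exact Bq j hp), zero_add]
  refine (add_le_add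
    (coker_src_le (F := zKos B d Bq) θ (colT Bq j) p ((C * E : ℕ) : ℕ∞) fun S _ => (hθ _ (hT S)).1)
    (kern_src_le (F := zKos B d Bq) θ (colT Bq j) (p - 1) ((C * E : ℕ) : ℕ∞)
      fun S _ => (hθ _ (hT S)).2)).trans (le_of_eq ?_)
  rw [show Fintype.card (zKos B d Bq).ι = Fintype.card (Finset (Fin d)) from
    Fintype.card_congr (Equiv.refl _)]
  push_cast
  ring

end Vale.Agent.P202.Mixed
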