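import Vale.Agent.P202.Mixed.Defs
import Vale.Agent.P202.Mixed.Len

/-!
# P202 mixed characteristic: the weight ideals and the levels
-/

noncomputable section

namespace Vale.Agent.P202.Mixed

open IsLocalRing MvPolynomial

universe u

variable {B : Type u} [CommRing B] [IsLocalRing B] {d K : ℕ}

theorem wTerm_le {a b : ℕ} {u : ℤ} (h : u ≤ ((a * K + b : ℕ) : ℤ)) :
    (maximalIdeal B ^ a).map MvPolynomial.C * zIdeal B d ^ b ≤ wIdeal B d K u :=
  le_trans (le_trans (le_iSup (fun _ : u ≤ ((a * K + b : ℕ) : ℤ) =>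
    (maximalIdeal B ^ a).map MvPolynomial.C * zIdeal B d ^ b) h)
      (le_iSup (fun b => ⨆ (_ : u ≤ ((a * K + b : ℕ) : ℤ)),
        (maximalIdeal B ^ a).map MvPolynomial.C * zIdeal B d ^ b) b))
    (le_iSup (fun a => ⨆ (b : ℕ) (_ : u ≤ ((a * K + b : ℕ) : ℤ)),
        (maximalIdeal B ^ a).map MvPolynomial.C * zIdeal B d ^ b) a)

theorem wIdeal_le {u : ℤ} {J : Ideal (Rz B d)}
    (h : ∀ a b : ℕ, u ≤ ((a * K + b : ℕ) : ℤ) →
      (maximalIdeal B ^ a).map MvPolynomial.C * zIdeal B d ^ b ≤ J) :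
    wIdeal B d K u ≤ J :=
  iSup_le fun a => iSup_le fun b => iSup_le fun hu => h a b hu

theorem zIdeal_pow_le_wIdeal {b : ℕ} {u : ℤ} (h : u ≤ b) :
    zIdeal B d ^ b ≤ wIdeal B d K u := by
  refine le_trans (le_of_eq ?_) (wTerm_le (a := 0) (b := b) (by simpa using h))
  rw [pow_zero, Ideal.one_eq_top, Ideal.map_top, Ideal.top_mul]

theorem wIdeal_of_nonpos {u : ℤ} (h : u ≤ 0) : wIdeal B d K u = ⊤ := by
  refine top_le_iff.1 (le_trans (le_of_eq ?_) (zIdeal_pow_le_wIdeal (b := 0) (by simpa using h)))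
  rw [pow_zero, Ideal.one_eq_top]

theorem wIdeal_antitone {u u' : ℤ} (h : u ≤ u') : wIdeal B d K u' ≤ wIdeal B d K u :=
  wIdeal_le fun _ _ hu => wTerm_le (h.trans hu)

theorem wIdeal_mul (u u' : ℤ) :
    wIdeal B d K u * wIdeal B d K u' ≤ wIdeal B d K (u + u') := by
  simp only [wIdeal, Ideal.iSup_mul, Ideal.mul_iSup]
  simp only [iSup_le_iff]
  intro a' b' h' a b h
  refine le_trans (le_of_eq ?_) (wTerm_le (a := a + a') (b := b + b') ?_)
  · rw [pow_add, pow_add, Ideal.map_mul]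
    ring
  · push_cast at h h' ⊢
    linarith [add_mul (a : ℤ) (a' : ℤ) (K : ℤ)]

theorem C_mem_wIdeal {r : B} (hr : r ∈ maximalIdeal B) {u : ℤ} (h : u ≤ K) :
    (MvPolynomial.C r : Rz B d) ∈ wIdeal B d K u := by
  refine wTerm_le (a := 1) (b := 0) (by simpa using h) ?_
  rw [pow_zero, mul_one, pow_one]
  exact Ideal.mem_map_of_mem _ hr

theorem X_pow_mem_wIdeal (a : Fin d) (n : ℕ) {u : ℤ} (h : u ≤ n) :
    (MvPolynomial.X a : Rz B d) ^ n ∈ wIdeal B d K u :=
  zIdeal_pow_le_wIdeal h (Ideal.pow_mem_pow (Ideal.subset_span (s := Set.range (MvPolynomial.X : Fin d → Rz B d)) ⟨a, rfl⟩) n)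

/-- One step down in the weight. -/
theorem wIdeal_le_step {u : ℤ} (hu : 1 ≤ u) :
    wIdeal B d K u ≤ zIdeal B d * wIdeal B d K (u - 1) ⊔
      (maximalIdeal B).map MvPolynomial.C * wIdeal B d K (u - K) := by
  refine wIdeal_le fun a b hab => ?_
  rcases b with _ | b
  · rcases a with _ | a
    · simp only [zero_mul, zero_add, Nat.cast_zero] at hab
      omega
    · refine le_trans (le_of_eq ?_) (le_trans (mul_le_mul' le_rfl
        (wTerm_le (a := a) (b := 0) (u := u - K) ?_)) le_sup_right)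
      · rw [pow_succ', Ideal.map_mul]
        ring
      · push_cast at hab ⊢
        linarith [add_mul (a : ℤ) 1 (K : ℤ)]
  · refine le_trans (le_of_eq ?_) (le_trans (mul_le_mul' le_rfl
      (wTerm_le (a := a) (b := b) (u := u - 1) ?_)) le_sup_left)
    · rw [pow_succ']
      ring
    · push_cast at hab ⊢
      linarith

section Module

variable (B) (M : Type u) [AddCommGroup M] [Module (Rz B d) M] [Module B M]
  [IsScalarTower B (Rz B d) M]

/-- The weight filtration over the base. -/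
def filB (K : ℕ) (u : ℤ) : Submodule B M := (fil B (d := d) M K u).restrictScalars B

variable {B M}

theorem mem_filB {u : ℤ} {m : M} : m ∈ filB B (d := d) M K u ↔ m ∈ fil B (d := d) M K u :=
  Iff.rfl

theorem filB_antitone {u u' : ℤ} (h : u ≤ u') :
    filB B (d := d) M K u' ≤ filB B (d := d) M K u :=
  fun _ hm => Submodule.smul_mono_left (wIdeal_antitone h) hm

theorem filB_of_nonpos {u : ℤ} (h : u ≤ 0) : filB B (d := d) M K u = ⊤ := by
  refine top_le_iff.1 fun m _ => ?_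
  rw [mem_filB, fil, wIdeal_of_nonpos h, Submodule.top_smul]
  trivial

theorem smul_mem_filB {P : Rz B d} {e u : ℤ} (hP : P ∈ wIdeal B d K e) {m : M}
    (hm : m ∈ filB B (d := d) M K u) {u' : ℤ} (h : u' ≤ e + u) :
    P • m ∈ filB B (d := d) M K u' := by
  refine filB_antitone h ?_
  have := Submodule.smul_mem_smul hP hm
  rw [fil, ← Submodule.smul_assoc, smul_eq_mul] at this
  exact Submodule.smul_mono_left (wIdeal_mul e u) this

theorem zIdeal_pow_smul_le_filB {b : ℕ} {u : ℤ} (h : u ≤ b) :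
    ((zIdeal B d ^ b • ⊤ : Submodule (Rz B d) M).restrictScalars B) ≤ filB B (d := d) M K u :=
  fun _ hm => Submodule.smul_mono_left (zIdeal_pow_le_wIdeal h) hm

variable (B M)

/-- Functions with prescribed levels. -/
def lvlF {ι : Type*} (K : ℕ) (T : ι → ℤ) : Submodule B (ι → M) :=
  Submodule.pi Set.univ fun g => filB B (d := d) M K (T g)

variable {B M}

theorem mem_lvlF {ι : Type*} {T : ι → ℤ} {f : ι → M} :
    f ∈ lvlF B (d := d) M K T ↔ ∀ g, f g ∈ filB B (d := d) M K (T g) := by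
  simp [lvlF]

theorem lvlF_antitone {ι : Type*} {T T' : ι → ℤ} (h : ∀ g, T g ≤ T' g) :
    lvlF B (d := d) M K T' ≤ lvlF B (d := d) M K T :=
  fun _ hf => mem_lvlF.2 fun g => filB_antitone (h g) (mem_lvlF.1 hf g)

theorem filG_eq_lvlF (G : FreeCx B) (c : ℕ) (u : ℤ) :
    filG B (d := d) M G K c u =
      lvlF B (d := d) M K fun g => u - ((c * G.pos g : ℕ) : ℤ) := by
  ext f
  exact (mem_lvlF (T := fun g => u - ((c * G.pos g : ℕ) : ℤ))).symm

/-- The differential respects levels when the matrix has enough weight. -/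
theorem dA_mem_lvlFF (F : FreeCx (Rz B d)) {T T' : F.ι → ℤ} {f : F.ι → M}
    (h : ∀ l g, F.mat l g ≠ 0 → ∃ e : ℤ, F.mat l g ∈ wIdeal B d K e ∧ T' l ≤ e + T g)
    (hf : f ∈ lvlF B (d := d) M K T) : F.dA M f ∈ lvlF B (d := d) M K T' := by
  refine mem_lvlF.2 fun l => Submodule.sum_mem _ fun g _ => ?_
  by_cases h0 : F.mat l g = 0
  · rw [h0, zero_smul]
    exact Submodule.zero_mem _
  · obtain ⟨e, he, hle⟩ := h l g h0
    exact smul_mem_filB he (mem_lvlF.1 hf g) hle

theorem stable_lvlF (F : FreeCx (Rz B d)) {T : F.ι → ℤ}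
    (h : ∀ l g, F.mat l g ≠ 0 → F.mat l g ∈ wIdeal B d K (T l - T g)) :
    (F.diff M B).Stable (lvlF B (d := d) M K T) :=
  fun _ hf => dA_mem_lvlFF F (fun l g h0 => ⟨T l - T g, h l g h0, by omega⟩) hf

end Module

end Vale.Agent.P202.Mixed
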