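import Vale.Agent.P202.HomAlg.Coef
import Vale.Agent.P202.Mixed.Levels.Cmp

/-!
# P202 mixed characteristic: graded pieces of a complex against the complex on a free module

For a complex over the polynomial ring whose entries have a homogeneous leading part, a surjection
from a free module gives a chain map of pairs, level by level, with small kernels and cokernels.
-/

noncomputable section

namespace Vale.Agent.P202.Mixed

open IsLocalRing MvPolynomial Finset

universe u

variable {B : Type u} [CommRing B] [IsLocalRing B] {d K n : ℕ} (F : FreeCx (Rz B d))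

/-- Families with leading parts in prescribed degrees. -/
def srcLvl (K n : ℕ) (T : F.ι → ℤ) : Submodule B (F.ι → Fin n → Rz B d) :=
  Submodule.pi Set.univ fun g => srcXn B d K n (T g)

/-- Families without leading parts in prescribed degrees. -/
def srcLvl₀ (K n : ℕ) (T : F.ι → ℤ) : Submodule B (F.ι → Fin n → Rz B d) :=
  Submodule.pi Set.univ fun g => srcYn B d K n (T g)

variable {F}

theorem mem_srcLvl {T : F.ι → ℤ} {a : F.ι → Fin n → Rz B d} :
    a ∈ srcLvl F K n T ↔ ∀ g i, a g i ∈ srcX B d K (T g) := by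
  simp [srcLvl, srcXn, Set.mem_univ_pi, Submodule.mem_pi]

theorem mem_srcLvl₀ {T : F.ι → ℤ} {a : F.ι → Fin n → Rz B d} :
    a ∈ srcLvl₀ F K n T ↔ ∀ g i, a g i ∈ srcY B d K (T g) := by
  simp [srcLvl₀, srcYn, Set.mem_univ_pi, Submodule.mem_pi]

theorem srcLvl₀_le (T : F.ι → ℤ) : srcLvl₀ F K n T ≤ srcLvl F K n T := fun _ h =>
  mem_srcLvl.2 fun g i => ((mem_srcLvl₀.1 h) g i).1

theorem dA_src_apply (a : F.ι → Fin n → Rz B d) (l : F.ι) (i : Fin n) :
    F.dA (Fin n → Rz B d) a l i = ∑ g, F.mat l g * a g i := by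
  simp [FreeCx.dA_apply, Finset.sum_apply, smul_eq_mul]

theorem dA_mem_srcLvl {T : F.ι → ℤ}
    (hF : ∀ l g, F.mat l g ≠ 0 → F.mat l g ∈ srcX B d K (T l - T g))
    {a : F.ι → Fin n → Rz B d} (ha : a ∈ srcLvl F K n T) :
    F.dA (Fin n → Rz B d) a ∈ srcLvl F K n T := by
  refine mem_srcLvl.2 fun l i => ?_
  rw [dA_src_apply]
  refine Submodule.sum_mem _ fun g _ => ?_
  by_cases h : F.mat l g = 0
  · rw [h, zero_mul]
    exact Submodule.zero_mem _
  · have := mul_mem_srcX (hF l g h) (mem_srcLvl.1 ha g i)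
    rwa [sub_add_cancel] at this

theorem dA_mem_srcLvl₀ {T : F.ι → ℤ}
    (hF : ∀ l g, F.mat l g ≠ 0 → F.mat l g ∈ srcX B d K (T l - T g))
    {a : F.ι → Fin n → Rz B d} (ha : a ∈ srcLvl₀ F K n T) :
    F.dA (Fin n → Rz B d) a ∈ srcLvl₀ F K n T := by
  refine mem_srcLvl₀.2 fun l i => ?_
  rw [dA_src_apply]
  refine Submodule.sum_mem _ fun g _ => ?_
  by_cases h : F.mat l g = 0
  · rw [h, zero_mul]
    exact Submodule.zero_mem _
  · have := mul_mem_srcY (hF l g h) (mem_srcLvl₀.1 ha g i)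
    rwa [sub_add_cancel] at this

variable {M : Type u} [AddCommGroup M] [Module (Rz B d) M] [Module B M]
  [IsScalarTower B (Rz B d) M]

/-- The chain map of pairs given by a map from a free module. -/
theorem chainPair_src (hK : 1 ≤ K) {T : F.ι → ℤ}
    (hF : ∀ l g, F.mat l g ≠ 0 → F.mat l g ∈ srcX B d K (T l - T g))
    (θ : (Fin n → Rz B d) →ₗ[Rz B d] M) :
    ChainPair (F.diff (Fin n → Rz B d) B) (F.diff M B) (F.coef B θ) (srcLvl F K n T)
      (srcLvl₀ F K n T) (lvlF B (d := d) M K T) (lvlF B (d := d) M K fun g => T g + 1) where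
  comm := F.coef_d B θ
  deg := F.coef_deg B θ
  mapX a ha := mem_lvlF.2 fun g =>
    map_mem_filB θ fun i => srcX_le_wIdeal (mem_srcLvl.1 ha g i)
  mapY a ha := mem_lvlF.2 fun g =>
    map_mem_filB θ fun i => srcY_le_wIdeal hK (mem_srcLvl₀.1 ha g i)
  stable _ ha := dA_mem_srcLvl hF ha
  stable' := stable_lvlF F fun l g h => by
    rw [add_sub_add_right_eq_sub]
    exact srcX_le_wIdeal (hF l g h)

/-- The cokernel in one position. -/
theorem coker_src_le (θ : (Fin n → Rz B d) →ₗ[Rz B d] M) (T : F.ι → ℤ) (p : ℤ) (c : ℕ∞)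
    (hc : ∀ g, (F.pos g : ℤ) = p →
      len ((srcXn B d K n (T g)).map (θ.restrictScalars B) ⊔ filB B (d := d) M K (T g + 1))
        (filB B (d := d) M K (T g)) ≤ c) :
    ChainPair.coker (F.diff (Fin n → Rz B d) B) (F.diff M B) (F.coef B θ) (srcLvl F K n T)
      (lvlF B (d := d) M K T) (lvlF B (d := d) M K fun g => T g + 1) p ≤
        (Fintype.card F.ι : ℕ∞) * c := by
  classical
  let P₀ : F.ι → Submodule B M := fun g => if (F.pos g : ℤ) = p then
    (srcXn B d K n (T g)).map (θ.restrictScalars B) ⊔ filB B (d := d) M K (T g + 1) else ⊤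
  refine le_trans (len_pi_le
    (P := (srcLvl F K n T ⊓ (F.diff (Fin n → Rz B d) B).deg p).map (F.coef B θ) ⊔
      (lvlF B (d := d) M K (fun g => T g + 1) ⊓ (F.diff M B).deg p))
    (N := lvlF B (d := d) M K T ⊓ (F.diff M B).deg p)
    (fun g => LinearMap.proj g) P₀ (fun g => filB B (d := d) M K (T g))
    (fun f hf g => mem_lvlF.1 hf.1 g) ?_) ?_
  · intro f hf hP
    have h : ∀ g, ∃ (a : Fin n → Rz B d) (y : M), a ∈ srcXn B d K n (T g) ∧
        y ∈ filB B (d := d) M K (T g + 1) ∧ θ a + y = f g ∧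
          ((F.pos g : ℤ) ≠ p → a = 0 ∧ y = 0) := by
      intro g
      by_cases hg : (F.pos g : ℤ) = p
      · have := hP g
        simp only [P₀, if_pos hg] at this
        obtain ⟨_, ⟨a, ha, rfl⟩, y, hy, e⟩ := Submodule.mem_sup.1 this
        exact ⟨a, y, ha, hy, e, fun h => absurd hg h⟩
      · refine ⟨0, 0, Submodule.zero_mem _, Submodule.zero_mem _, ?_, fun _ => ⟨rfl, rfl⟩⟩
        rw [map_zero, zero_add, hf.2 g hg]
    choose a y ha hy e hz using h
    rw [show f = F.coef B θ a + y from funext fun g => (e g).symm]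
    exact Submodule.add_mem_sup
      ⟨a, ⟨mem_srcLvl.2 fun g i => mem_srcXn.1 (ha g) i, fun g hg => (hz g hg).1⟩, rfl⟩
      ⟨mem_lvlF.2 hy, fun g hg => (hz g hg).2⟩
  · refine (Finset.sum_le_sum (g := fun _ => c) fun g _ => ?_).trans ?_
    · by_cases hg : (F.pos g : ℤ) = p
      · simp only [P₀, if_pos hg]
        exact hc g hg
      · simp only [P₀, if_neg hg]
        rw [len_eq_zero le_top]
        exact zero_le
    · simp

/-- The kernel in one position. -/
theorem kern_src_le (θ : (Fin n → Rz B d) →ₗ[Rz B d] M) (T : F.ι → ℤ) (p : ℤ) (c : ℕ∞)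
    (hc : ∀ g, (F.pos g : ℤ) = p →
      len (srcYn B d K n (T g))
        (srcXn B d K n (T g) ⊓ (filB B (d := d) M K (T g + 1)).comap (θ.restrictScalars B)) ≤ c) :
    ChainPair.kern (F.diff (Fin n → Rz B d) B) (F.coef B θ) (srcLvl F K n T) (srcLvl₀ F K n T)
      (lvlF B (d := d) M K fun g => T g + 1) p ≤ (Fintype.card F.ι : ℕ∞) * c := by
  classical
  let P₀ : F.ι → Submodule B (Fin n → Rz B d) := fun g =>
    if (F.pos g : ℤ) = p then srcYn B d K n (T g) else ⊤
  refine le_trans (len_pi_le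
    (P := srcLvl₀ F K n T ⊓ (F.diff (Fin n → Rz B d) B).deg p)
    (N := srcLvl F K n T ⊓ (F.diff (Fin n → Rz B d) B).deg p ⊓
      (lvlF B (d := d) M K fun g => T g + 1).comap (F.coef B θ))
    (fun g => LinearMap.proj g) P₀
    (fun g => srcXn B d K n (T g) ⊓ (filB B (d := d) M K (T g + 1)).comap (θ.restrictScalars B))
    (fun f hf g => ⟨mem_srcXn.2 fun i => mem_srcLvl.1 hf.1.1 g i, mem_lvlF.1 hf.2 g⟩) ?_) ?_
  · intro f hf hP
    refine ⟨mem_srcLvl₀.2 fun g i => ?_, hf.1.2⟩
    by_cases hg : (F.pos g : ℤ) = p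
    · have := hP g
      simp only [P₀, if_pos hg] at this
      exact mem_srcYn.1 this i
    · rw [hf.1.2 g hg]
      exact Submodule.zero_mem _
  · refine (Finset.sum_le_sum (g := fun _ => c) fun g _ => ?_).trans ?_
    · by_cases hg : (F.pos g : ℤ) = p
      · simp only [P₀, if_pos hg]
        exact hc g hg
      · simp only [P₀, if_neg hg]
        rw [len_eq_zero le_top]
        exact zero_le
    · simp

end Vale.Agent.P202.Mixed
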